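import Mathlib

/-!
# P014T: Mathlib's local polynomial and Euler product (copied from P004G.ML, P004H.H641, P014.H687)
-/

set_option linter.all false

open WeierstrassCurve IsDedekindDomain NumberField Polynomial

namespace Vale.Agent.P014T.Lf

/-- the number of affine points of a Weierstrass curve -/
noncomputable def affCard {F : Type} [Field F] (W : WeierstrassCurve F) : ℕ :=
  Nat.card {q : F × F // q.2 ^ 2 + W.a₁ * q.1 * q.2 + W.a₃ * q.2 =
    q.1 ^ 3 + W.a₂ * q.1 ^ 2 + W.a₄ * q.1 + W.a₆}

/-- the place `p` of `ℚ` -/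
noncomputable def pl (p : ℕ) (hp : p.Prime) : HeightOneSpectrum (𝓞 ℚ) :=
  (Rat.HeightOneSpectrum.primesEquiv (R := 𝓞 ℚ)).symm ⟨p, hp⟩

/-- `R` is like `ℤ_p` -/
structure Loc (p : ℕ) (R : Type) [CommRing R] [IsDomain R] [IsDiscreteValuationRing R] :
    Prop where
  prime : p.Prime
  charZero : CharZero R
  unif : Irreducible (p : R)
  card : Nat.card (IsLocalRing.ResidueField R) = p

/-- Module ML1a : good reduction. -/
def StLocGood : Prop :=
  ∀ (p : ℕ) (R : Type) [CommRing R] [IsDomain R] [IsDiscreteValuationRing R] (K : Type) [Field K]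
    [Algebra R K] [IsFractionRing R K] (_ : Loc p R) (W : WeierstrassCurve K)
    (C : VariableChange K) (W₁ : WeierstrassCurve R), C • W = W₁.map (algebraMap R K) →
    IsUnit W₁.Δ → W.localPolynomial R =
      1 - Polynomial.C ((p : ℤ) - affCard (W₁.map (IsLocalRing.residue R))) * X +
        Polynomial.C (p : ℤ) * X ^ 2

/-- Module ML1b : additive reduction. -/
def StLocAdd : Prop :=
  ∀ (p : ℕ) (R : Type) [CommRing R] [IsDomain R] [IsDiscreteValuationRing R] (K : Type) [Field K]
    [Algebra R K] [IsFractionRing R K] (_ : Loc p R) (W : WeierstrassCurve K),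
    (∀ (C : VariableChange K) (W₁ : WeierstrassCurve R), C • W = W₁.map (algebraMap R K) →
      ¬ IsUnit W₁.Δ ∧ ¬ IsUnit W₁.c₄) → W.localPolynomial R = 1

/-- Module ML2a : the completions of `ℚ`. -/
def StLoc : Prop := ∀ (p : ℕ) (hp : p.Prime), Loc p ((pl p hp).adicCompletionIntegers ℚ)

namespace M1

section count

variable {F : Type} [Field F]

/-- the affine points -/
def APts (W : WeierstrassCurve F) : Type :=
  {q : F × F // q.2 ^ 2 + W.a₁ * q.1 * q.2 + W.a₃ * q.2 =
    q.1 ^ 3 + W.a₂ * q.1 ^ 2 + W.a₄ * q.1 + W.a₆}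

lemma affCard_eq (W : WeierstrassCurve F) : affCard W = Nat.card (APts W) := rfl

/-- a change of variables induces a bijection on affine points -/
def ptsEquiv (W : WeierstrassCurve F) (C : VariableChange F) : APts (C • W) ≃ APts W where
  toFun q := ⟨((C.u : F) ^ 2 * q.1.1 + C.r, (C.u : F) ^ 3 * q.1.2 + C.s * (C.u : F) ^ 2 * q.1.1 + C.t),
    by
      obtain ⟨⟨x, y⟩, h⟩ := q
      have hu : (C.u : F) ≠ 0 := C.u.ne_zero
      simp only [variableChange_a₁, variableChange_a₂, variableChange_a₃, variableChange_a₄,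
        variableChange_a₆, Units.val_inv_eq_inv_val] at h ⊢
      field_simp at h
      linear_combination h⟩
  invFun q := ⟨((C.u⁻¹ : F) ^ 2 * (q.1.1 - C.r), (C.u⁻¹ : F) ^ 3 * (q.1.2 - C.s * (q.1.1 - C.r) - C.t)),
    by
      obtain ⟨⟨x, y⟩, h⟩ := q
      have hu : (C.u : F) ≠ 0 := C.u.ne_zero
      simp only [variableChange_a₁, variableChange_a₂, variableChange_a₃, variableChange_a₄,
        variableChange_a₆, Units.val_inv_eq_inv_val] at h ⊢
      field_simp
      linear_combination h⟩
  left_inv q := by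
    obtain ⟨⟨x, y⟩, h⟩ := q
    have hu : (C.u : F) ≠ 0 := C.u.ne_zero
    apply Subtype.ext
    apply Prod.ext
    · simp only
      field_simp
      ring
    · simp only
      field_simp
      ring
  right_inv q := by
    obtain ⟨⟨x, y⟩, h⟩ := q
    have hu : (C.u : F) ≠ 0 := C.u.ne_zero
    apply Subtype.ext
    apply Prod.ext
    · simp only
      field_simp
      ring
    · simp only
      field_simp
      ring

lemma affCard_smul (W : WeierstrassCurve F) (C : VariableChange F) :
    affCard (C • W) = affCard W := Nat.card_congr (ptsEquiv W C)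

/-- the points of an elliptic curve -/
noncomputable def ptEquiv (W : WeierstrassCurve F) [W.IsElliptic] :
    W.toAffine.Point ≃ Option (APts W) where
  toFun P := match P with
    | .zero => none
    | .some x y h => some ⟨(x, y), (Affine.equation_iff ..).1 h.1⟩
  invFun P := match P with
    | none => .zero
    | some q => .some q.1.1 q.1.2 (Affine.equation_iff_nonsingular.1 ((Affine.equation_iff ..).2 q.2))
  left_inv P := by
    cases P <;> rfl
  right_inv P := by
    cases P <;> rfl

lemma card_point (W : WeierstrassCurve F) [W.IsElliptic] [Finite F] :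
    Nat.card W.toAffine.Point = affCard W + 1 := by
  have : Finite (APts W) := Subtype.finite
  rw [Nat.card_congr (ptEquiv W), Finite.card_option, affCard_eq]

end count

section dvr

open IsDiscreteValuationRing IsLocalRing IsDedekindDomain.HeightOneSpectrum

variable {R : Type} [CommRing R] [IsDomain R] [IsDiscreteValuationRing R] {K : Type} [Field K]
  [Algebra R K] [IsFractionRing R K]

lemma integ {x : K} (hx : _root_.IsIntegral R x) : ∃ r : R, algebraMap R K r = x :=
  (IsIntegrallyClosed.isIntegral_iff).1 hx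

lemma integ_of_monic {x : K} (f : R[X]) (hf : f.Monic) (h : aeval x f = 0) :
    ∃ r : R, algebraMap R K r = x := integ ⟨f, hf, by simpa [aeval_def] using h⟩

/-- The change of variables between two integral models with a unit `u` is integral. -/
lemma lift_change (W₁ I : WeierstrassCurve R) (D : VariableChange K)
    (h : D • (W₁.map (algebraMap R K)) = I.map (algebraMap R K)) (u : Rˣ)
    (hu : algebraMap R K u = D.u) :
    ∃ D' : VariableChange R, D' • W₁ = I := by
  have hu0 : (D.u : K) ≠ 0 := D.u.ne_zero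
  have e2 := congrArg WeierstrassCurve.a₂ h
  have e6 := congrArg WeierstrassCurve.a₆ h
  have b6 := congrArg WeierstrassCurve.b₆ h
  have b8 := congrArg WeierstrassCurve.b₈ h
  simp only [variableChange_a₂, variableChange_a₆, variableChange_b₆, variableChange_b₈,
    Units.val_inv_eq_inv_val, map_a₁, map_a₂, map_a₃, map_a₄, map_a₆, map_b₂, map_b₄, map_b₆,
    map_b₈] at e2 e6 b6 b8
  rw [← hu] at e2 e6 b6 b8 hu0
  field_simp at e2 e6 b6 b8
  -- `4 r` is integral
  have h4 : ∃ r : R, algebraMap R K r = 4 * D.r := by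
    refine integ_of_monic (X ^ 3 + Polynomial.C W₁.b₂ * X ^ 2 + Polynomial.C (8 * W₁.b₄) * X +
      Polynomial.C (16 * (W₁.b₆ - u ^ 6 * I.b₆))) (by monicity!) ?_
    simp only [map_add, map_mul, map_pow, aeval_X, aeval_C, map_sub, map_ofNat]
    linear_combination 16 * b6
  have h3 : ∃ r : R, algebraMap R K r = 3 * D.r := by
    refine integ_of_monic (X ^ 4 + Polynomial.C W₁.b₂ * X ^ 3 + Polynomial.C (9 * W₁.b₄) * X ^ 2 +
      Polynomial.C (27 * W₁.b₆) * X +
      Polynomial.C (27 * (W₁.b₈ - u ^ 8 * I.b₈))) (by monicity!) ?_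
    simp only [map_add, map_mul, map_pow, aeval_X, aeval_C, map_sub, map_ofNat]
    linear_combination 27 * b8
  obtain ⟨r4, hr4⟩ := h4
  obtain ⟨r3, hr3⟩ := h3
  obtain ⟨r, hr⟩ : ∃ r : R, algebraMap R K r = D.r := ⟨r4 - r3, by
    rw [map_sub, hr4, hr3]; ring⟩
  obtain ⟨s, hs⟩ : ∃ s : R, algebraMap R K s = D.s := by
    refine integ_of_monic (X ^ 2 + Polynomial.C W₁.a₁ * X +
      Polynomial.C (- (W₁.a₂ + 3 * r - u ^ 2 * I.a₂))) (by monicity!) ?_
    simp only [map_add, map_mul, map_pow, aeval_X, aeval_C, map_sub, map_ofNat, map_neg, hr]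
    linear_combination - e2
  obtain ⟨t, ht⟩ : ∃ t : R, algebraMap R K t = D.t := by
    refine integ_of_monic (X ^ 2 + Polynomial.C (W₁.a₃ + r * W₁.a₁) * X +
      Polynomial.C (- (W₁.a₆ + r * W₁.a₄ + r ^ 2 * W₁.a₂ + r ^ 3 - u ^ 6 * I.a₆))) (by monicity!) ?_
    simp only [map_add, map_mul, map_pow, aeval_X, aeval_C, map_sub, map_neg, hr]
    linear_combination - e6
  refine ⟨⟨u, r, s, t⟩, ?_⟩
  have hD : D = (⟨u, r, s, t⟩ : VariableChange R).map (algebraMap R K) := by
    ext
    · simp [VariableChange.map, hu]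
    · simp [VariableChange.map, hr]
    · simp [VariableChange.map, hs]
    · simp [VariableChange.map, ht]
  rw [hD, map_variableChange] at h
  exact WeierstrassCurve.map_injective (IsFractionRing.injective R K) h

lemma val_eq_one_iff (x : R) :
    valuation K (maximalIdeal R) (algebraMap R K x) = 1 ↔ IsUnit x := by
  have h1 : valuation K (maximalIdeal R) (algebraMap R K x) < 1 ↔
      x ∈ IsLocalRing.maximalIdeal R := valuation_lt_one_iff_mem _ _
  have h2 := valuation_le_one (K := K) (maximalIdeal R) x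
  rw [← not_iff_not]
  constructor
  · intro h hx
    have := h1.1 (lt_of_le_of_ne h2 h)
    exact this hx
  · intro h h'
    have := h1.2 (by rwa [mem_maximalIdeal, mem_nonunits_iff])
    exact absurd h' this.ne

variable (R) in
/-- the integral model of the minimal model -/
noncomputable def Im (W : WeierstrassCurve K) : WeierstrassCurve R := integralModel R (W.minimal R)

lemma Im_map (W : WeierstrassCurve K) :
    ∃ C : VariableChange K, C • W = (Im R W).map (algebraMap R K) :=
  ⟨(W.exists_isMinimal R).choose, (baseChange_integralModel_eq R (W.minimal R)).symm⟩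

lemma val_Δ (W : WeierstrassCurve K) : valuation K (maximalIdeal R) (W.minimal R).Δ =
    valuation K (maximalIdeal R) (algebraMap R K (Im R W).Δ) := by
  rw [Im, integralModel_Δ_eq]

lemma val_c₄ (W : WeierstrassCurve K) : valuation K (maximalIdeal R) (W.minimal R).c₄ =
    valuation K (maximalIdeal R) (algebraMap R K (Im R W).c₄) := by
  rw [Im, integralModel_c₄_eq]

lemma good_iff (W : WeierstrassCurve K) :
    (W.minimal R).HasGoodReduction R ↔ IsUnit (Im R W).Δ := by
  rw [hasGoodReduction_iff, val_Δ, val_eq_one_iff]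
  exact ⟨fun h => h.2, fun h => ⟨inferInstance, h⟩⟩

lemma mult_c₄ (W : WeierstrassCurve K) (h : (W.minimal R).HasMultiplicativeReduction R) :
    IsUnit (Im R W).c₄ := by
  rw [hasMultiplicativeReduction_iff, val_c₄, val_eq_one_iff] at h
  exact h.2.2

/-- a model with unit discriminant forces the minimal model to have unit discriminant, and the two
are related by an integral change of variables -/
lemma unit_model (W : WeierstrassCurve K) (C : VariableChange K) (W₁ : WeierstrassCurve R)
    (h : C • W = W₁.map (algebraMap R K)) (hΔ : IsUnit W₁.Δ) :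
    IsUnit (Im R W).Δ ∧ ∃ D' : VariableChange R, D' • W₁ = Im R W := by
  have hmin : IsMinimal R (W.minimal R) := inferInstance
  have hC₀ : W.minimal R = (W.exists_isMinimal R).choose • W := rfl
  set C₀ : VariableChange K := (W.exists_isMinimal R).choose with hC₀'
  set D : VariableChange K := C₀ * C⁻¹ with hD
  have hDW : D • (W₁.map (algebraMap R K)) = W.minimal R := by
    rw [hD, ← h, mul_smul, inv_smul_smul, hC₀]
  have hDW' : D⁻¹ • W.minimal R = W₁.map (algebraMap R K) := by
    rw [← hDW, inv_smul_smul]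
  have hint : (D⁻¹ • W.minimal R).IsIntegral R := ⟨W₁, hDW'⟩
  have hmax := hmin.val_Δ_maximal.2 (j := D⁻¹) hint
  have hval : valuation K (maximalIdeal R) (D⁻¹ • W.minimal R).Δ = 1 := by
    rw [hDW', map_Δ, val_eq_one_iff]
    exact hΔ
  have hge : valuation_Δ_aux R (D⁻¹ • W.minimal R) ≤ valuation_Δ_aux R (W.minimal R) := by
    rcases le_total (valuation_Δ_aux R (D⁻¹ • W.minimal R)) (valuation_Δ_aux R (W.minimal R))
      with h1 | h1
    · exact h1
    · simpa using hmax (by simpa using h1)
  have hge' : (1 : WithZero (Multiplicative ℤ)) ≤ valuation K (maximalIdeal R) (W.minimal R).Δ := by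
    rw [← hval, ← valuation_Δ_aux_eq_of_isIntegral, ← valuation_Δ_aux_eq_of_isIntegral]
    exact_mod_cast hge
  have hu1 : IsUnit (Im R W).Δ := by
    rw [← val_eq_one_iff (K := K), ← val_Δ]
    refine le_antisymm ?_ hge'
    rw [val_Δ]
    exact valuation_le_one _ _
  refine ⟨hu1, ?_⟩
  obtain ⟨v, hv⟩ := hu1
  obtain ⟨w, hw⟩ := hΔ
  have hu0 : (D.u : K) ≠ 0 := D.u.ne_zero
  have hIm : (Im R W).map (algebraMap R K) = W.minimal R :=
    baseChange_integralModel_eq R (W.minimal R)
  have e := congrArg WeierstrassCurve.Δ hDW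
  rw [← hIm, variableChange_Δ, map_Δ, map_Δ, ← hv, ← hw, Units.val_inv_eq_inv_val] at e
  field_simp at e
  have i1 : ∃ a : R, algebraMap R K a = D.u := by
    refine integ_of_monic (X ^ 12 - Polynomial.C ((w * v⁻¹ : Rˣ) : R)) (by monicity!) ?_
    have hv0 : algebraMap R K (v : R) ≠ 0 := by
      rw [Ne, map_eq_zero_iff _ (IsFractionRing.injective R K)]; exact v.ne_zero
    have : algebraMap R K (v : R) * algebraMap R K ((v⁻¹ : Rˣ) : R) = 1 := by
      rw [← map_mul, Units.mul_inv, map_one]
    simp only [map_sub, map_pow, aeval_X, aeval_C, Units.val_mul, map_mul]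
    linear_combination (- (algebraMap R K ((v⁻¹ : Rˣ) : R))) * e - (D.u : K) ^ 12 * this
  have i2 : ∃ a : R, algebraMap R K a = (D.u : K)⁻¹ := by
    refine integ_of_monic (X ^ 12 - Polynomial.C ((v * w⁻¹ : Rˣ) : R)) (by monicity!) ?_
    have : algebraMap R K (w : R) * algebraMap R K ((w⁻¹ : Rˣ) : R) = 1 := by
      rw [← map_mul, Units.mul_inv, map_one]
    simp only [map_sub, map_pow, aeval_X, aeval_C, Units.val_mul, map_mul]
    have e' : algebraMap R K (w : R) * ((D.u : K)⁻¹) ^ 12 = algebraMap R K (v : R) := by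
      field_simp
      linear_combination e
    linear_combination (algebraMap R K ((w⁻¹ : Rˣ) : R)) * e' - ((D.u : K)⁻¹) ^ 12 * this
  obtain ⟨a, ha⟩ := i1
  obtain ⟨b, hb⟩ := i2
  have hab : a * b = 1 := by
    apply IsFractionRing.injective R K
    rw [map_mul, ha, hb, map_one, mul_inv_cancel₀ hu0]
  refine lift_change W₁ (Im R W) D (hDW.trans hIm.symm) ⟨a, b, hab, by rw [mul_comm, hab]⟩ ha

/-- Module ML1a. -/
theorem pfLocGood : StLocGood := by
  intro p R _ _ _ K _ _ _ hR W C W₁ h hΔ
  obtain ⟨hu, D', hD'⟩ := unit_model W C W₁ h hΔ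
  have hcard := hR.card
  have : Finite (ResidueField R) := Nat.finite_of_card_ne_zero (by
    rw [hcard]; exact hR.prime.ne_zero)
  have hred : (W.minimal R).reduction R = (D'.map (residue R)) • (W₁.map (residue R)) := by
    rw [reduction, ← Im, ← hD', map_variableChange]
  have hell : ((W.minimal R).reduction R).IsElliptic :=
    (hasGoodReduction_iff_isElliptic_reduction R).1 ((good_iff W).2 hu)
  have hpt : Nat.card ((W.minimal R).reduction R).toAffine.Point =
      affCard (W₁.map (residue R)) + 1 := by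
    rw [card_point, hred, affCard_smul]
  rw [localPolynomial, if_pos ((good_iff W).2 hu), hcard, hpt]
  congr 4
  push_cast
  ring

/-- Module ML1b. -/
theorem pfLocAdd : StLocAdd := by
  intro p R _ _ _ K _ _ _ hR W h
  obtain ⟨C, hC⟩ := Im_map (R := R) W
  obtain ⟨h1, h2⟩ := h C _ hC
  rw [localPolynomial, if_neg (fun hg => h1 ((good_iff W).1 hg)),
    if_neg (fun hs => h2 (mult_c₄ W hs.toHasMultiplicativeReduction)),
    if_neg (fun hs => h2 (mult_c₄ W hs))]

end dvr

end M1

namespace M2

/-- Module ML2a. -/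
theorem pfLoc : StLoc := by
  intro p hp
  have : Fact p.Prime := ⟨hp⟩
  have e : ℤ_[p] ≃+* (pl p hp).adicCompletionIntegers ℚ :=
    (PadicInt.adicCompletionIntegersEquiv (𝓞 ℚ) ⟨p, hp⟩).toRingEquiv
  refine ⟨hp, ?_, ?_, ?_⟩
  · exact charZero_of_injective_ringHom (f := (e : ℤ_[p] →+* (pl p hp).adicCompletionIntegers ℚ))
      e.injective
  · have h := (MulEquiv.irreducible_iff e.toMulEquiv (x := (p : ℤ_[p]))).2 PadicInt.irreducible_p
    simpa using h
  · have h := Nat.card_congr ((IsLocalRing.ResidueField.mapEquiv e).symm.trans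
      PadicInt.residueField).toEquiv
    rw [h, Nat.card_zmod]

open ArithmeticFunction in
/-- trivial at the powers of `p` -/
def EE (p : ℕ) (g : ArithmeticFunction ℤ) : Prop := ∀ j : ℕ, g (p ^ j) = if j = 0 then 1 else 0

open ArithmeticFunction in
lemma mul_pow (p : ℕ) (hp : p.Prime) (g h : ArithmeticFunction ℤ) (hE : EE p h) (j : ℕ) :
    (g * h) (p ^ j) = g (p ^ j) := by
  rw [ArithmeticFunction.mul_apply, Nat.sum_divisorsAntidiagonal (f := fun a b => g a * h b),
    Nat.sum_divisors_prime_pow hp]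
  rw [Finset.sum_eq_single j]
  · rw [Nat.div_self (pow_pos hp.pos j)]
    have := hE 0
    simp only [pow_zero, if_true] at this
    rw [this, mul_one]
  · intro i hi hij
    have hi' : i < j := lt_of_le_of_ne (Nat.lt_succ_iff.1 (Finset.mem_range.1 hi)) hij
    rw [Nat.pow_div hi'.le hp.pos, hE, if_neg (by omega), mul_zero]
  · intro h
    exact absurd (Finset.mem_range.2 (Nat.lt_succ_self j)) h

open ArithmeticFunction in
lemma EE_prod {ι : Type} (p : ℕ) (hp : p.Prime) (s : Finset ι) (f : ι → ArithmeticFunction ℤ)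
    (h : ∀ i ∈ s, EE p (f i)) : EE p (∏ i ∈ s, f i) := by
  classical
  induction s using Finset.induction_on with
  | empty =>
    intro j
    rw [Finset.prod_empty, ArithmeticFunction.one_apply]
    by_cases hj : j = 0
    · simp [hj]
    · rw [if_neg, if_neg hj]
      exact (Nat.one_lt_pow hj hp.one_lt).ne'
  | insert i s hi ih =>
    intro j
    rw [Finset.prod_insert hi, mul_pow p hp _ _ (ih fun k hk => h k (Finset.mem_insert_of_mem hk))]
    exact h i (Finset.mem_insert_self i s) j

open ArithmeticFunction in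
/-- the Euler product at prime powers -/
lemma euler_pow {ι : Type} (q : ι → ℕ) (hq : ∀ i, (q i).Prime) (hinj : Function.Injective q)
    (f : ι → PowerSeries ℤ) (hf : ∀ i, (f i).constantCoeff = 1) (i : ι) (k : ℕ) :
    eulerProduct (fun i ↦ ofPowerSeries (q i) (f i)) (q i ^ k) = (f i).coeff k := by
  classical
  have : Northcott q := ⟨fun b => Set.Finite.of_injOn (f := q) (t := Set.Iic b)
    (fun a ha => ha) (hinj.injOn) (Set.finite_Iic b)⟩
  have h1 := tendsTo_eulerProduct_ofPowerSeries q f hf (q i ^ k)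
  have h2 := (h1.and (Filter.eventually_ge_atTop ({i} : Finset ι))).exists
  obtain ⟨s, hs, his⟩ := h2
  rw [← hs]
  have hi : i ∈ s := his (Finset.mem_singleton_self i)
  rw [← Finset.mul_prod_erase s _ hi, mul_pow (q i) (hq i)]
  · exact ofPowerSeries_apply_pow (hq i).one_lt _ _
  · apply EE_prod _ (hq i)
    intro j hj m
    have hji : q j ≠ q i := fun h => (Finset.mem_erase.1 hj).1 (hinj h)
    by_cases hm : m = 0
    · subst hm
      rw [if_pos rfl, pow_zero, ofPowerSeries_apply_one, hf]
    · rw [if_neg hm, ofPowerSeries_apply (hq j).one_lt, Function.extend_apply', Pi.zero_apply]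
      rintro ⟨a, ha⟩
      have ha0 : a ≠ 0 := by
        rintro rfl
        rw [pow_zero] at ha
        exact (Nat.one_lt_pow hm (hq i).one_lt).ne ha
      have h3 : q j ∣ q i ^ m := ha ▸ dvd_pow_self _ ha0
      exact hji ((Nat.prime_dvd_prime_iff_eq (hq j) (hq i)).1 ((hq j).dvd_of_dvd_pow h3))

lemma qv_eq (v : HeightOneSpectrum (𝓞 ℚ)) :
    Nat.card (IsLocalRing.ResidueField (v.adicCompletionIntegers ℚ)) =
      (Rat.HeightOneSpectrum.primesEquiv (R := 𝓞 ℚ) v).1 := by
  obtain ⟨p, rfl⟩ := (Rat.HeightOneSpectrum.primesEquiv (R := 𝓞 ℚ)).symm.surjective v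
  rw [Equiv.apply_symm_apply]
  exact (pfLoc p.1 p.2).card

lemma qv_prime (v : HeightOneSpectrum (𝓞 ℚ)) :
    (Nat.card (IsLocalRing.ResidueField (v.adicCompletionIntegers ℚ))).Prime := by
  rw [qv_eq]
  exact (Rat.HeightOneSpectrum.primesEquiv (R := 𝓞 ℚ) v).2

lemma qv_inj : Function.Injective (fun v : HeightOneSpectrum (𝓞 ℚ) =>
    Nat.card (IsLocalRing.ResidueField (v.adicCompletionIntegers ℚ))) := by
  intro v w h
  simp only [qv_eq] at h
  exact (Rat.HeightOneSpectrum.primesEquiv (R := 𝓞 ℚ)).injective (Subtype.ext h)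

lemma cc_one (P : ℤ[X]) : (PowerSeries.invOfUnit (P : PowerSeries ℤ) 1).constantCoeff = 1 := by
  simp [PowerSeries.constantCoeff_invOfUnit]

/-- coefficients of `1 / (1 + a X + b X²)` -/
lemma inv_quad (P : ℤ[X]) (a b : ℤ)
    (hP : P = 1 + Polynomial.C a * X + Polynomial.C b * X ^ 2) :
    let S : PowerSeries ℤ := PowerSeries.invOfUnit (P : PowerSeries ℤ) 1
    S.coeff 0 = 1 ∧ S.coeff 1 = -a ∧ ∀ k, S.coeff (k + 2) = -a * S.coeff (k + 1) - b * S.coeff k := by
  intro S
  have hc : PowerSeries.constantCoeff (P : PowerSeries ℤ) = ((1 : ℤˣ) : ℤ) := by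
    rw [hP]; simp
  have hS : (P : PowerSeries ℤ) * S = 1 := PowerSeries.mul_invOfUnit _ _ hc
  have hP' : (P : PowerSeries ℤ) = 1 + PowerSeries.C a * PowerSeries.X +
      PowerSeries.C b * PowerSeries.X ^ 2 := by
    rw [hP, Polynomial.coe_add, Polynomial.coe_add, Polynomial.coe_mul, Polynomial.coe_mul,
      Polynomial.coe_pow, Polynomial.coe_C, Polynomial.coe_C, Polynomial.coe_X, Polynomial.coe_one]
  rw [hP'] at hS
  have hS' : S = 1 - PowerSeries.C a * (PowerSeries.X * S) -
      PowerSeries.C b * (PowerSeries.X * (PowerSeries.X * S)) := by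
    linear_combination hS
  have h0 : S.coeff 0 = 1 := by
    rw [hS']
    simp
  refine ⟨h0, ?_, ?_⟩
  · rw [hS']
    simp only [map_sub, PowerSeries.coeff_C_mul]
    rw [show (1 : ℕ) = 0 + 1 from rfl, PowerSeries.coeff_succ_X_mul, PowerSeries.coeff_succ_X_mul, h0]
    simp [PowerSeries.coeff_one]
  · intro k
    conv_lhs => rw [hS']
    simp only [map_sub, PowerSeries.coeff_C_mul]
    rw [show k + 2 = (k + 1) + 1 from rfl, PowerSeries.coeff_succ_X_mul,
      PowerSeries.coeff_succ_X_mul, PowerSeries.coeff_succ_X_mul, PowerSeries.coeff_one]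
    simp

end M2

section loc

variable {p : ℕ} {R : Type} [CommRing R] [IsDomain R] [IsDiscreteValuationRing R]

lemma mem_max (h : Loc p R) {x : R} : ¬ IsUnit x ↔ (p : R) ∣ x := by
  rw [← mem_nonunits_iff, ← IsLocalRing.mem_maximalIdeal, h.unif.maximalIdeal_eq,
    Ideal.mem_span_singleton]

lemma int_unit (h : Loc p R) {n : ℤ} (hn : ¬ (p : ℤ) ∣ n) : IsUnit (n : R) := by
  by_contra h1
  rw [mem_max h] at h1
  have hp : Prime (p : ℤ) := Nat.prime_iff_prime_int.1 h.prime
  have hc : IsCoprime (p : ℤ) n := (Prime.coprime_iff_not_dvd hp).2 hn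
  obtain ⟨x, y, hxy⟩ := hc
  have h2 : (x : R) * (p : R) + (y : R) * (n : R) = 1 := by
    have := congrArg (fun z : ℤ => (z : R)) hxy
    push_cast at this
    exact this
  have h3 : (p : R) ∣ 1 := by
    rw [← h2]
    exact dvd_add (Dvd.intro_left _ rfl) (h1.mul_left _)
  exact h.unif.not_isUnit (isUnit_of_dvd_one h3)

lemma int_dvd (h : Loc p R) {n : ℤ} (h1 : (p : R) ∣ (n : R)) : (p : ℤ) ∣ n := by
  by_contra h2
  exact (mem_max h).2 h1 (int_unit h h2)

lemma int_pow_dvd (h : Loc p R) (k : ℕ) {n : ℤ} (h1 : (p : R) ^ k ∣ (n : R)) :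
    (p : ℤ) ^ k ∣ n := by
  have := h.charZero
  induction k generalizing n with
  | zero => simp
  | succ k ih =>
    have h2 : (p : R) ∣ (n : R) := (dvd_pow_self _ (by omega)).trans h1
    obtain ⟨m, rfl⟩ := int_dvd h h2
    have h3 : (p : R) ^ k ∣ (m : R) := by
      have hp0 : (p : R) ≠ 0 := h.unif.ne_zero
      push_cast at h1
      rw [pow_succ, mul_comm] at h1
      exact (mul_dvd_mul_iff_left hp0).1 h1
    rw [pow_succ, mul_comm]
    exact mul_dvd_mul_left _ (ih h3)

/-- a nonzero element is a unit times a power of `p` -/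
lemma fac (h : Loc p R) {x : R} (hx : x ≠ 0) : ∃ (n : ℕ) (u : Rˣ), x = u * (p : R) ^ n :=
  IsDiscreteValuationRing.eq_unit_mul_pow_irreducible hx h.unif

lemma fac_unique (h : Loc p R) {x y : R} (hx : IsUnit x) (hy : IsUnit y) {m n : ℕ}
    (e : x * (p : R) ^ m = y * (p : R) ^ n) : m = n ∧ x = y := by
  obtain ⟨u, rfl⟩ := hx
  obtain ⟨v, rfl⟩ := hy
  have h1 := IsDiscreteValuationRing.unit_mul_pow_congr_pow h.unif h.unif u v m n e
  subst h1
  exact ⟨rfl, mul_right_cancel₀ (pow_ne_zero _ h.unif.ne_zero) e⟩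

/-- the residue field -/
lemma res_equiv (h : Loc p R) : Nonempty (ZMod p ≃+* IsLocalRing.ResidueField R) := by
  have : Fact p.Prime := ⟨h.prime⟩
  have : Finite (IsLocalRing.ResidueField R) :=
    Nat.finite_of_card_ne_zero (by rw [h.card]; exact h.prime.ne_zero)
  let := Fintype.ofFinite (IsLocalRing.ResidueField R)
  have hc : Fintype.card (IsLocalRing.ResidueField R) = p := by
    rw [← Nat.card_eq_fintype_card, h.card]
  exact ⟨ZMod.ringEquivOfPrime (IsLocalRing.ResidueField R) h.prime hc⟩

/-- invariance of the number of points -/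
lemma affCard_equiv {F F' : Type} [Field F] [Field F'] (e : F ≃+* F') (W : WeierstrassCurve F) :
    affCard (W.map (e : F →+* F')) = affCard W := by
  unfold affCard
  refine (Nat.card_congr ((e.toEquiv.prodCongr e.toEquiv).subtypeEquiv fun q => ?_)).symm
  simp only [Equiv.prodCongr_apply, Prod.map, RingEquiv.toEquiv_eq_coe, EquivLike.coe_coe,
    WeierstrassCurve.map_a₁, WeierstrassCurve.map_a₂, WeierstrassCurve.map_a₃,
    WeierstrassCurve.map_a₄, WeierstrassCurve.map_a₆, RingEquiv.coe_toRingHom]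
  rw [← e.injective.eq_iff]
  simp only [map_add, map_mul, map_pow]

end loc

namespace MQ

section local_ring

variable {p : ℕ} {R : Type} [CommRing R] [IsDomain R] [IsDiscreteValuationRing R]
  {K : Type} [Field K] [Algebra R K] [IsFractionRing R K]

/-- if `u ^ n w = c` with `w` a unit then `u` is in `R` -/
lemma u_int {n : ℕ} (hn : 0 < n) (u : K) {w c : R} (hw : IsUnit w)
    (he : u ^ n * algebraMap R K w = algebraMap R K c) : ∃ r : R, algebraMap R K r = u := by
  obtain ⟨w', rfl⟩ := hw
  have h1 : u ^ n = algebraMap R K (c * (w'⁻¹ : Rˣ)) := by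
    rw [map_mul, ← he, mul_assoc, ← map_mul, Units.mul_inv, map_one, mul_one]
  exact IsIntegrallyClosed.exists_algebraMap_eq_of_isIntegral_pow (R := R) hn
    (h1 ▸ isIntegral_algebraMap)


end local_ring

end MQ

section

open M1

/-! ### the tangent directions at the node -/

section node

variable {F : Type*} [Field F]

/-- the quadratic polynomial of the tangent directions at the node has a root -/
def SplitNode (V : WeierstrassCurve F) : Prop :=
  ∃ T : F, V.c₄ * T ^ 2 + V.a₁ * V.c₄ * T - (54 * V.b₆ - 3 * V.b₂ * V.b₄ + V.a₂ * V.c₄) = 0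

lemma node_smul (V : WeierstrassCurve F) (C : VariableChange F) (T : F) :
    (C • V).c₄ * T ^ 2 + (C • V).a₁ * (C • V).c₄ * T -
      (54 * (C • V).b₆ - 3 * (C • V).b₂ * (C • V).b₄ + (C • V).a₂ * (C • V).c₄) =
    ((C.u⁻¹ : Fˣ) : F) ^ 6 * (V.c₄ * ((C.u : F) * T + C.s) ^ 2 +
      V.a₁ * V.c₄ * ((C.u : F) * T + C.s) -
      (54 * V.b₆ - 3 * V.b₂ * V.b₄ + V.a₂ * V.c₄)) := by
  have hu : (C.u : F) ≠ 0 := C.u.ne_zero
  rw [variableChange_c₄, variableChange_a₁, variableChange_a₂, variableChange_b₂,
    variableChange_b₄, variableChange_b₆, Units.val_inv_eq_inv_val]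
  simp only [WeierstrassCurve.c₄]
  field_simp
  ring

lemma splitNode_smul (V : WeierstrassCurve F) (C : VariableChange F) :
    SplitNode (C • V) ↔ SplitNode V := by
  have hu : (C.u : F) ≠ 0 := C.u.ne_zero
  have hui : ((C.u⁻¹ : Fˣ) : F) ≠ 0 := (C.u⁻¹).ne_zero
  constructor
  · rintro ⟨T, hT⟩
    rw [node_smul] at hT
    exact ⟨_, (mul_eq_zero.1 hT).resolve_left (pow_ne_zero _ hui)⟩
  · rintro ⟨T, hT⟩
    refine ⟨(C.u : F)⁻¹ * (T - C.s), ?_⟩
    rw [node_smul]
    have e : (C.u : F) * ((C.u : F)⁻¹ * (T - C.s)) + C.s = T := by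
      rw [← mul_assoc, mul_inv_cancel₀ hu]; ring
    rw [e, hT, mul_zero]

lemma splits_iff (V : WeierstrassCurve F) (hc : V.c₄ ≠ 0) :
    Splits (C V.c₄ * X ^ 2 + C (V.a₁ * V.c₄) * X -
      C (54 * V.b₆ - 3 * V.b₂ * V.b₄ + V.a₂ * V.c₄)) ↔ SplitNode V := by
  have hd : (C V.c₄ * X ^ 2 + C (V.a₁ * V.c₄) * X -
      C (54 * V.b₆ - 3 * V.b₂ * V.b₄ + V.a₂ * V.c₄)).natDegree = 2 := by
    have e : C V.c₄ * X ^ 2 + C (V.a₁ * V.c₄) * X -
      C (54 * V.b₆ - 3 * V.b₂ * V.b₄ + V.a₂ * V.c₄) =
      C V.c₄ * X ^ 2 + C (V.a₁ * V.c₄) * X +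
      C (-(54 * V.b₆ - 3 * V.b₂ * V.b₄ + V.a₂ * V.c₄)) := by
      rw [C_neg, sub_eq_add_neg]
    rw [e]
    exact natDegree_quadratic hc
  constructor
  · intro h
    obtain ⟨x, hx⟩ := h.exists_eval_eq_zero (by
      intro h0
      rw [natDegree_eq_of_degree_eq_some h0] at hd
      norm_num at hd)
    refine ⟨x, ?_⟩
    simpa using hx
  · rintro ⟨x, hx⟩
    refine Splits.of_natDegree_eq_two hd (x := x) ?_
    simpa using hx

end node

section dvr

open IsDiscreteValuationRing IsLocalRing IsDedekindDomain.HeightOneSpectrum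

variable {R : Type} [CommRing R] [IsDomain R] [IsDiscreteValuationRing R] {K : Type} [Field K]
  [Algebra R K] [IsFractionRing R K]

/-- a model with unit `c₄` is minimal -/
lemma unit_c₄_model (W : WeierstrassCurve K) (C : VariableChange K) (W₁ : WeierstrassCurve R)
    (h : C • W = W₁.map (algebraMap R K)) (hc : IsUnit W₁.c₄) (hΔ : W₁.Δ ≠ 0) :
    ∃ D' : VariableChange R, D' • W₁ = Im R W := by
  have hinj : Function.Injective (algebraMap R K) := IsFractionRing.injective R K
  have hmin : IsMinimal R (W.minimal R) := inferInstance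
  have hC₀ : W.minimal R = (W.exists_isMinimal R).choose • W := rfl
  set C₀ : VariableChange K := (W.exists_isMinimal R).choose with hC₀'
  set D : VariableChange K := C₀ * C⁻¹ with hD
  have hDW : D • (W₁.map (algebraMap R K)) = W.minimal R := by
    rw [hD, ← h, mul_smul, inv_smul_smul, hC₀]
  have hDW' : D⁻¹ • W.minimal R = W₁.map (algebraMap R K) := by
    rw [← hDW, inv_smul_smul]
  have hint : (D⁻¹ • W.minimal R).IsIntegral R := ⟨W₁, hDW'⟩
  have hmax := hmin.val_Δ_maximal.2 (j := D⁻¹) hint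
  have hge : valuation_Δ_aux R (D⁻¹ • W.minimal R) ≤ valuation_Δ_aux R (W.minimal R) := by
    rcases le_total (valuation_Δ_aux R (D⁻¹ • W.minimal R)) (valuation_Δ_aux R (W.minimal R))
      with h1 | h1
    · exact h1
    · simpa using hmax (by simpa using h1)
  have hge' : valuation K (maximalIdeal R) (algebraMap R K W₁.Δ) ≤
      valuation K (maximalIdeal R) (algebraMap R K (Im R W).Δ) := by
    rw [← val_Δ, ← WeierstrassCurve.map_Δ, ← hDW', ← valuation_Δ_aux_eq_of_isIntegral,
      ← valuation_Δ_aux_eq_of_isIntegral]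
    exact_mod_cast hge
  have hu0 : (D.u : K) ≠ 0 := D.u.ne_zero
  have hIm : (Im R W).map (algebraMap R K) = W.minimal R :=
    baseChange_integralModel_eq R (W.minimal R)
  -- `u⁻¹` is integral
  have e4 := congrArg WeierstrassCurve.c₄ hDW
  rw [← hIm, variableChange_c₄, map_c₄, map_c₄, Units.val_inv_eq_inv_val] at e4
  obtain ⟨w, hw⟩ := hc
  obtain ⟨b, hb⟩ : ∃ b : R, algebraMap R K b = (D.u : K)⁻¹ :=
    MQ.u_int (n := 4) (by norm_num) _ (w := W₁.c₄) (c := (Im R W).c₄) ⟨w, hw⟩ e4
  have e12 := congrArg WeierstrassCurve.Δ hDW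
  rw [← hIm, variableChange_Δ, map_Δ, map_Δ, Units.val_inv_eq_inv_val, ← hb] at e12
  have hbu : IsUnit b := by
    rw [← val_eq_one_iff (K := K)]
    have hv1 : valuation K (maximalIdeal R) (algebraMap R K b) ≤ 1 := valuation_le_one _ _
    refine le_antisymm hv1 ?_
    by_contra hlt
    rw [not_le] at hlt
    rw [← e12, map_mul, map_pow] at hge'
    have hne : valuation K (maximalIdeal R) (algebraMap R K W₁.Δ) ≠ 0 := by
      rw [Ne, Valuation.zero_iff, map_eq_zero_iff _ hinj]
      exact hΔ
    have h1 : valuation K (maximalIdeal R) (algebraMap R K b) ^ 12 < 1 :=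
      pow_lt_one₀ zero_le hlt (by norm_num)
    have h2 : valuation K (maximalIdeal R) (algebraMap R K b) ^ 12 *
        valuation K (maximalIdeal R) (algebraMap R K W₁.Δ) <
        1 * valuation K (maximalIdeal R) (algebraMap R K W₁.Δ) :=
      mul_lt_mul_of_pos_right h1 (zero_lt_iff.2 hne)
    rw [one_mul] at h2
    exact absurd hge' (not_le.2 h2)
  obtain ⟨β, hβ⟩ := hbu
  refine lift_change W₁ (Im R W) D (hDW.trans hIm.symm) β⁻¹ ?_
  have h1 : algebraMap R K (β : R) * algebraMap R K ((β⁻¹ : Rˣ) : R) = 1 := by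
    rw [← map_mul, Units.mul_inv, map_one]
  rw [hβ, hb] at h1
  field_simp at h1
  exact h1

open Classical in
/-- **multiplicative reduction** -/
theorem locMult (W : WeierstrassCurve K) (C : VariableChange K) (W₁ : WeierstrassCurve R)
    (h : C • W = W₁.map (algebraMap R K)) (hc : IsUnit W₁.c₄) (hΔ : W₁.Δ ≠ 0)
    (hΔ' : ¬ IsUnit W₁.Δ) :
    W.localPolynomial R = if SplitNode (W₁.map (residue R)) then 1 - X else 1 + X := by
  obtain ⟨D', hD'⟩ := unit_c₄_model W C W₁ h hc hΔ
  have hΔI : ¬ IsUnit (Im R W).Δ := by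
    rw [← hD', variableChange_Δ]
    intro h1
    exact hΔ' (isUnit_of_mul_isUnit_right h1)
  have hcI : IsUnit (Im R W).c₄ := by
    rw [← hD', variableChange_c₄]
    exact ((D'.u⁻¹).isUnit.pow 4).mul hc
  have hmult : (W.minimal R).HasMultiplicativeReduction R := by
    rw [hasMultiplicativeReduction_iff, val_c₄, val_eq_one_iff]
    refine ⟨inferInstance, ?_, hcI⟩
    rw [val_Δ]
    refine lt_of_le_of_ne (valuation_le_one _ _) ?_
    rw [Ne, val_eq_one_iff]
    exact hΔI
  have hred : (Im R W).map (residue R) = (D'.map (residue R)) • (W₁.map (residue R)) := by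
    rw [← hD', map_variableChange]
  have hc' : ((Im R W).map (residue R)).c₄ ≠ 0 := by
    rw [map_c₄, Ne, residue_eq_zero_iff, mem_maximalIdeal, mem_nonunits_iff, not_not]
    exact hcI
  have hsplit : (W.minimal R).HasSplitMultiplicativeReduction R ↔
      SplitNode (W₁.map (residue R)) := by
    rw [← splitNode_smul _ (D'.map (residue R)), ← hred, ← splits_iff _ hc',
      hasSplitMultiplicativeReduction_iff]
    have e : (Polynomial.map (algebraMap R (ResidueField R))
        (Polynomial.C ((W.minimal R).integralModel R).c₄ * X ^ 2 +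
          Polynomial.C (((W.minimal R).integralModel R).a₁ *
            ((W.minimal R).integralModel R).c₄) * X -
          Polynomial.C (54 * ((W.minimal R).integralModel R).b₆ -
            3 * ((W.minimal R).integralModel R).b₂ * ((W.minimal R).integralModel R).b₄ +
            ((W.minimal R).integralModel R).a₂ * ((W.minimal R).integralModel R).c₄))) =
        Polynomial.C ((Im R W).map (residue R)).c₄ * X ^ 2 +
          Polynomial.C (((Im R W).map (residue R)).a₁ * ((Im R W).map (residue R)).c₄) * X -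
          Polynomial.C (54 * ((Im R W).map (residue R)).b₆ -
            3 * ((Im R W).map (residue R)).b₂ * ((Im R W).map (residue R)).b₄ +
            ((Im R W).map (residue R)).a₂ * ((Im R W).map (residue R)).c₄) := by
      simp only [Polynomial.map_sub, Polynomial.map_add, Polynomial.map_mul, Polynomial.map_pow,
        Polynomial.map_X, Polynomial.map_C, WeierstrassCurve.map_c₄, WeierstrassCurve.map_a₁,
        WeierstrassCurve.map_a₂, WeierstrassCurve.map_b₂, WeierstrassCurve.map_b₄,
        WeierstrassCurve.map_b₆, ← ResidueField.algebraMap_eq, map_mul, map_add, map_sub,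
        map_ofNat, Polynomial.map_ofNat, Im]
    rw [← e]
    exact ⟨fun h1 => h1.2, fun h1 => ⟨hmult, h1⟩⟩
  rw [localPolynomial, if_neg (fun hg => hΔI ((good_iff W).1 hg))]
  simp only [hsplit, hmult, if_true]

end dvr

end

/-- Mathlib's local polynomial at `p` -/
noncomputable def lp (E : WeierstrassCurve ℚ) (p : ℕ) (hp : p.Prime) : ℤ[X] :=
  (E.baseChange ((pl p hp).adicCompletion ℚ)).localPolynomial ((pl p hp).adicCompletionIntegers ℚ)

theorem lf_pow (E : WeierstrassCurve ℚ) (p : ℕ) (hp : p.Prime) (k : ℕ) :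
    E.LFunction (p ^ k) =
      PowerSeries.coeff k (PowerSeries.invOfUnit (lp E p hp : PowerSeries ℤ) 1) := by
  have h := M2.euler_pow (fun v : HeightOneSpectrum (𝓞 ℚ) =>
    Nat.card (IsLocalRing.ResidueField (v.adicCompletionIntegers ℚ))) M2.qv_prime M2.qv_inj
    (fun v => PowerSeries.invOfUnit (((E.baseChange (v.adicCompletion ℚ)).localPolynomial
      (v.adicCompletionIntegers ℚ) : ℤ[X]) : PowerSeries ℤ) 1) (fun v => M2.cc_one _) (pl p hp) k
  simp only [(M2.pfLoc p hp).card] at h
  exact h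

theorem lf_mul (E : WeierstrassCurve ℚ) : ArithmeticFunction.IsMultiplicative (E.LFunction) := by
  apply ArithmeticFunction.isMultiplicative_eulerProduct
  intro v
  exact ArithmeticFunction.isMultiplicative_ofPowerSeries_of_isPrimePow _
    (M2.qv_prime v).isPrimePow _ (M2.cc_one _)

end Vale.Agent.P014T.Lf
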