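import Vale.Agent.P014T.Lc.Sg
import Vale.Agent.P014T.Lc.Lf
import Vale.Agent.P014.Defs

/-!
# P014T: the local polynomial of a global minimal equation and the nonsingular points mod `p`
-/

set_option linter.unusedSimpArgs false

open WeierstrassCurve IsDedekindDomain NumberField Polynomial

namespace Vale.Agent.P014T.Lc

open Lf Vale.Agent.P014

/-- the number of nonsingular points (the point at infinity included) of `W` modulo `p` -/
noncomputable def np (W : WeierstrassCurve ℤ) (p : ℕ) : ℕ :=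
  Nat.card (W.map (Int.castRingHom (ZMod p))).toAffine.Point

/-- `1` at the primes of good reduction, `0` at the other ones -/
def ep (W : WeierstrassCurve ℤ) (p : ℕ) : ℤ := if (p : ℤ) ∣ W.Δ then 0 else 1

namespace Np

section dvr

variable {p : ℕ} {R : Type} [CommRing R] [IsDomain R] [IsDiscreteValuationRing R] {K : Type}
  [Field K] [Algebra R K] [IsFractionRing R K]

theorem approx (h : Loc p R) (k : ℕ) : ∀ x : R, ∃ n : ℤ, (p : R) ^ k ∣ x - n := by
  obtain ⟨e⟩ := res_equiv h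
  have h1 : ∀ x : R, ∃ n : ℤ, (p : R) ∣ x - n := by
    intro x
    obtain ⟨z, hz⟩ := e.surjective (IsLocalRing.residue R x)
    obtain ⟨n, rfl⟩ := ZMod.intCast_surjective z
    refine ⟨n, (mem_max h).1 ?_⟩
    rw [← mem_nonunits_iff, ← IsLocalRing.mem_maximalIdeal, ← IsLocalRing.residue_eq_zero_iff,
      map_sub, map_intCast, ← hz, map_intCast, sub_self]
  induction k with
  | zero => intro x; exact ⟨0, by simp⟩
  | succ k ih =>
    intro x
    obtain ⟨n, y, hy⟩ := ih x
    obtain ⟨m, z, hz⟩ := h1 y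
    refine ⟨n + p ^ k * m, z, ?_⟩
    push_cast
    linear_combination hy + (p : R) ^ k * hz

/-- the change of variables between two integral models with an integral `u` is integral -/
theorem lift (W I : WeierstrassCurve R) (D : VariableChange K)
    (h : D • (W.map (algebraMap R K)) = I.map (algebraMap R K)) (u : R)
    (hu : algebraMap R K u = D.u) : ∃ r s t : R, W.a₁ + 2 * s = u * I.a₁ ∧
      W.a₂ - s * W.a₁ + 3 * r - s ^ 2 = u ^ 2 * I.a₂ ∧ W.a₃ + r * W.a₁ + 2 * t = u ^ 3 * I.a₃ ∧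
      W.a₄ - s * W.a₃ + 2 * r * W.a₂ - (t + r * s) * W.a₁ + 3 * r ^ 2 - 2 * s * t =
        u ^ 4 * I.a₄ ∧
      W.a₆ + r * W.a₄ + r ^ 2 * W.a₂ + r ^ 3 - t * W.a₃ - t ^ 2 - r * t * W.a₁ = u ^ 6 * I.a₆ := by
  have hu0 : (D.u : K) ≠ 0 := D.u.ne_zero
  have e1 := congrArg WeierstrassCurve.a₁ h
  have e2 := congrArg WeierstrassCurve.a₂ h
  have e3 := congrArg WeierstrassCurve.a₃ h
  have e4 := congrArg WeierstrassCurve.a₄ h
  have e6 := congrArg WeierstrassCurve.a₆ h
  have b6 := congrArg WeierstrassCurve.b₆ h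
  have b8 := congrArg WeierstrassCurve.b₈ h
  simp only [variableChange_a₁, variableChange_a₂, variableChange_a₃, variableChange_a₄,
    variableChange_a₆, variableChange_b₆, variableChange_b₈,
    Units.val_inv_eq_inv_val, map_a₁, map_a₂, map_a₃, map_a₄, map_a₆, map_b₂, map_b₄, map_b₆,
    map_b₈] at e1 e2 e3 e4 e6 b6 b8
  rw [← hu] at e1 e2 e3 e4 e6 b6 b8 hu0
  field_simp at e1 e2 e3 e4 e6 b6 b8
  have h4 : ∃ r : R, algebraMap R K r = 4 * D.r := by
    refine M1.integ_of_monic (X ^ 3 + Polynomial.C W.b₂ * X ^ 2 + Polynomial.C (8 * W.b₄) * X +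
      Polynomial.C (16 * (W.b₆ - u ^ 6 * I.b₆))) (by monicity!) ?_
    simp only [map_add, map_mul, map_pow, aeval_X, aeval_C, map_sub, map_ofNat]
    linear_combination 16 * b6
  have h3 : ∃ r : R, algebraMap R K r = 3 * D.r := by
    refine M1.integ_of_monic (X ^ 4 + Polynomial.C W.b₂ * X ^ 3 +
      Polynomial.C (9 * W.b₄) * X ^ 2 + Polynomial.C (27 * W.b₆) * X +
      Polynomial.C (27 * (W.b₈ - u ^ 8 * I.b₈))) (by monicity!) ?_
    simp only [map_add, map_mul, map_pow, aeval_X, aeval_C, map_sub, map_ofNat]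
    linear_combination 27 * b8
  obtain ⟨r4, hr4⟩ := h4
  obtain ⟨r3, hr3⟩ := h3
  obtain ⟨r, hr⟩ : ∃ r : R, algebraMap R K r = D.r := ⟨r4 - r3, by
    rw [map_sub, hr4, hr3]; ring⟩
  obtain ⟨s, hs⟩ : ∃ s : R, algebraMap R K s = D.s := by
    refine M1.integ_of_monic (X ^ 2 + Polynomial.C W.a₁ * X +
      Polynomial.C (- (W.a₂ + 3 * r - u ^ 2 * I.a₂))) (by monicity!) ?_
    simp only [map_add, map_mul, map_pow, aeval_X, aeval_C, map_sub, map_ofNat, map_neg, hr]
    linear_combination - e2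
  obtain ⟨t, ht⟩ : ∃ t : R, algebraMap R K t = D.t := by
    refine M1.integ_of_monic (X ^ 2 + Polynomial.C (W.a₃ + r * W.a₁) * X +
      Polynomial.C (- (W.a₆ + r * W.a₄ + r ^ 2 * W.a₂ + r ^ 3 - u ^ 6 * I.a₆))) (by monicity!) ?_
    simp only [map_add, map_mul, map_pow, aeval_X, aeval_C, map_sub, map_neg, hr]
    linear_combination - e6
  refine ⟨r, s, t, ?_, ?_, ?_, ?_, ?_⟩ <;> apply IsFractionRing.injective R K <;>
    simp only [map_add, map_mul, map_pow, map_sub, map_ofNat, hr, hs, ht]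
  · linear_combination e1
  · linear_combination e2
  · linear_combination e3
  · linear_combination e4
  · linear_combination e6

/-- **a global minimal equation is minimal at `p`** -/
theorem inv_int (h : Loc p R) (W : WeierstrassCurve ℤ) (hΔ : W.Δ ≠ 0)
    (hm : GlobalMinimal (W.map (Int.castRingHom ℚ))) (D : VariableChange K)
    (I : WeierstrassCurve R)
    (e : D • ((W.map (Int.castRingHom R)).map (algebraMap R K)) = I.map (algebraMap R K)) :
    ∃ b : R, algebraMap R K b = (D.u : K)⁻¹ := by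
  rcases ValuationRing.isInteger_or_isInteger R (D.u : K) with ⟨u, hu⟩ | hu
  swap
  · exact hu
  by_cases hun : IsUnit u
  · obtain ⟨v, rfl⟩ := hun
    refine ⟨(v⁻¹ : Rˣ), eq_inv_of_mul_eq_one_left ?_⟩
    rw [← hu, ← map_mul, Units.inv_mul, map_one]
  exfalso
  obtain ⟨w, rfl⟩ := (mem_max h).1 hun
  obtain ⟨r, s, t, e1, e2, e3, e4, e6⟩ := lift _ I D e _ hu
  simp only [map_a₁, map_a₂, map_a₃, map_a₄, map_a₆, eq_intCast] at e1 e2 e3 e4 e6
  obtain ⟨r', ρ, hr⟩ := approx h 6 r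
  obtain ⟨s', σ, hs⟩ := approx h 6 s
  obtain ⟨t', τ, ht⟩ := approx h 6 t
  have key : ∀ (k : ℕ) (n : ℤ), k ≤ 6 → (∀ (Q : Type) [CommRing Q] (π : R →+* Q),
      π r = r' → π s = s' → π t = t' → π ((p : R) ^ k) = 0 → (n : Q) = 0) →
      ∃ m : ℤ, n = (p : ℤ) ^ k * m := by
    intro k n hk hn
    have k0 : ∀ {x : R} {x' : ℤ} {ξ : R}, x - x' = (p : R) ^ 6 * ξ →
        Ideal.Quotient.mk (Ideal.span {(p : R) ^ k}) x = x' := by
      intro x x' ξ hx
      rw [← map_intCast (Ideal.Quotient.mk (Ideal.span {(p : R) ^ k})), Ideal.Quotient.eq, hx,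
        Ideal.mem_span_singleton]
      exact (pow_dvd_pow _ hk).mul_right _
    have := hn _ (Ideal.Quotient.mk (Ideal.span {(p : R) ^ k})) (k0 hr) (k0 hs) (k0 ht)
      (Ideal.Quotient.eq_zero_iff_mem.2 (Ideal.mem_span_singleton_self _))
    rw [← map_intCast (Ideal.Quotient.mk (Ideal.span {(p : R) ^ k})),
      Ideal.Quotient.eq_zero_iff_mem, Ideal.mem_span_singleton] at this
    exact int_pow_dvd h k this
  obtain ⟨m1, f1⟩ := key 1 (W.a₁ + 2 * s') (by norm_num) fun Q _ π h1 h2 h3 h4 => by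
    have := congrArg π e1
    simp only [map_add, map_mul, map_pow, map_sub, map_ofNat, map_intCast, h1, h2, h3] at this h4
    push_cast
    linear_combination this + π w * π I.a₁ * h4
  obtain ⟨m2, f2⟩ := key 2 (W.a₂ - s' * W.a₁ + 3 * r' - s' ^ 2) (by norm_num)
    fun Q _ π h1 h2 h3 h4 => by
    have := congrArg π e2
    simp only [map_add, map_mul, map_pow, map_sub, map_ofNat, map_intCast, h1, h2, h3] at this h4
    push_cast
    linear_combination this + π w ^ 2 * π I.a₂ * h4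
  obtain ⟨m3, f3⟩ := key 3 (W.a₃ + r' * W.a₁ + 2 * t') (by norm_num) fun Q _ π h1 h2 h3 h4 => by
    have := congrArg π e3
    simp only [map_add, map_mul, map_pow, map_sub, map_ofNat, map_intCast, h1, h2, h3] at this h4
    push_cast
    linear_combination this + π w ^ 3 * π I.a₃ * h4
  obtain ⟨m4, f4⟩ := key 4 (W.a₄ - s' * W.a₃ + 2 * r' * W.a₂ - (t' + r' * s') * W.a₁ +
    3 * r' ^ 2 - 2 * s' * t') (by norm_num) fun Q _ π h1 h2 h3 h4 => by
    have := congrArg π e4
    simp only [map_add, map_mul, map_pow, map_sub, map_ofNat, map_intCast, h1, h2, h3] at this h4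
    push_cast
    linear_combination this + π w ^ 4 * π I.a₄ * h4
  obtain ⟨m6, f6⟩ := key 6 (W.a₆ + r' * W.a₄ + r' ^ 2 * W.a₂ + r' ^ 3 - t' * W.a₃ - t' ^ 2 -
    r' * t' * W.a₁) (by norm_num) fun Q _ π h1 h2 h3 h4 => by
    have := congrArg π e6
    simp only [map_add, map_mul, map_pow, map_sub, map_ofNat, map_intCast, h1, h2, h3] at this h4
    push_cast
    linear_combination this + π w ^ 6 * π I.a₆ * h4
  have hp0 : (p : ℚ) ≠ 0 := by exact_mod_cast h.prime.ne_zero
  have hint : (((⟨Units.mk0 (p : ℚ) hp0, r', s', t'⟩ : VariableChange ℚ)) •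
      W.map (Int.castRingHom ℚ)).IsIntegral ℤ := by
    refine ⟨⟨⟨m1, m2, m3, m4, m6⟩, ?_⟩⟩
    have g1 := congrArg (Int.cast : ℤ → ℚ) f1
    have g2 := congrArg (Int.cast : ℤ → ℚ) f2
    have g3 := congrArg (Int.cast : ℤ → ℚ) f3
    have g4 := congrArg (Int.cast : ℤ → ℚ) f4
    have g6 := congrArg (Int.cast : ℤ → ℚ) f6
    push_cast at g1 g2 g3 g4 g6
    ext <;> simp only [variableChange_a₁, variableChange_a₂, variableChange_a₃, variableChange_a₄,
      variableChange_a₆, Units.val_inv_eq_inv_val, Units.val_mk0, baseChange, map_a₁, map_a₂,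
      map_a₃, map_a₄, map_a₆, eq_intCast]
    · rw [g1]; field_simp
    · rw [g2]; field_simp
    · rw [g3]; field_simp
    · rw [g4]; field_simp
    · rw [g6]; field_simp
  have hle := hm.2 _ hint
  rw [variableChange_Δ, abs_mul, Units.val_inv_eq_inv_val, Units.val_mk0, abs_pow, abs_inv,
    Nat.abs_cast] at hle
  have h1 : 0 < |(W.map (Int.castRingHom ℚ)).Δ| := by
    rw [abs_pos, map_Δ, eq_intCast]
    exact_mod_cast hΔ
  have h2 : ((p : ℚ)⁻¹) ^ 12 < 1 := by
    refine pow_lt_one₀ (by positivity) (inv_lt_one_of_one_lt₀ ?_) (by norm_num)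
    exact_mod_cast h.prime.one_lt
  nlinarith

theorem splitNode_equiv {F F' : Type} [Field F] [Field F'] (e : F ≃+* F')
    (V : WeierstrassCurve F) : SplitNode (V.map (e : F →+* F')) ↔ SplitNode V := by
  simp only [SplitNode, map_c₄, map_a₁, map_a₂, map_b₂, map_b₄, map_b₆, RingHom.coe_coe]
  rw [e.surjective.exists]
  refine exists_congr fun T => ?_
  rw [← e.map_eq_zero_iff]
  simp only [map_add, map_sub, map_mul, map_pow, map_ofNat]

theorem loc (h : Loc p R) (W : WeierstrassCurve ℤ) (hΔ : W.Δ ≠ 0)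
    (hm : GlobalMinimal (W.map (Int.castRingHom ℚ))) :
    ((W.map (Int.castRingHom R)).map (algebraMap R K)).localPolynomial R =
      1 - C ((p : ℤ) + ep W p - np W p) * X + C (ep W p * p) * X ^ 2 := by
  have : Fact p.Prime := ⟨h.prime⟩
  have := h.charZero
  obtain ⟨e⟩ := res_equiv h
  have hres : (W.map (Int.castRingHom R)).map (IsLocalRing.residue R) =
      (W.map (Int.castRingHom (ZMod p))).map (e : ZMod p →+* IsLocalRing.ResidueField R) := by
    rw [WeierstrassCurve.map_map, WeierstrassCurve.map_map,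
      RingHom.ext_int ((IsLocalRing.residue R).comp _) (RingHom.comp _ _)]
  have hu : ∀ n : ℤ, IsUnit (n : R) ↔ ¬ (p : ℤ) ∣ n := fun n =>
    ⟨fun h1 h2 => h.unif.not_isUnit (isUnit_of_dvd_unit (by exact_mod_cast Int.cast_dvd_cast _ _ h2)
      h1), int_unit h⟩
  have eΔ : (W.map (Int.castRingHom R)).Δ = (W.Δ : R) := map_Δ _ _
  have ec : (W.map (Int.castRingHom R)).c₄ = (W.c₄ : R) := map_c₄ _ _
  have eΔ' : (W.map (Int.castRingHom (ZMod p))).Δ = (W.Δ : ZMod p) := map_Δ _ _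
  have ec' : (W.map (Int.castRingHom (ZMod p))).c₄ = (W.c₄ : ZMod p) := map_c₄ _ _
  by_cases h1 : (p : ℤ) ∣ W.Δ
  · have z1 : (W.map (Int.castRingHom (ZMod p))).Δ = 0 := by
      rw [eΔ', ZMod.intCast_zmod_eq_zero_iff_dvd]
      exact h1
    rw [ep, if_pos h1]
    by_cases h2 : (p : ℤ) ∣ W.c₄
    · have z2 : (W.map (Int.castRingHom (ZMod p))).c₄ = 0 := by
        rw [ec', ZMod.intCast_zmod_eq_zero_iff_dvd]
        exact h2
      rw [np, Sg.card_cusp _ z1 z2, M1.pfLocAdd p R K h]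
      · simp
      intro D I hD
      obtain ⟨b, hb⟩ := inv_int h W hΔ hm D I hD
      have k1 := congrArg WeierstrassCurve.Δ hD
      have k2 := congrArg WeierstrassCurve.c₄ hD
      rw [variableChange_Δ, Units.val_inv_eq_inv_val, ← hb, map_Δ, map_Δ I, ← map_pow,
        ← map_mul] at k1
      rw [variableChange_c₄, Units.val_inv_eq_inv_val, ← hb, map_c₄, map_c₄ I, ← map_pow,
        ← map_mul] at k2
      rw [← IsFractionRing.injective R K k1, ← IsFractionRing.injective R K k2, eΔ, ec]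
      exact ⟨fun k => (hu _).1 (isUnit_of_mul_isUnit_right k) h1,
        fun k => (hu _).1 (isUnit_of_mul_isUnit_right k) h2⟩
    · have z2 : (W.map (Int.castRingHom (ZMod p))).c₄ ≠ 0 := by
        rw [ec', Ne, ZMod.intCast_zmod_eq_zero_iff_dvd]
        exact h2
      rw [locMult _ 1 (W.map (Int.castRingHom R)) (one_smul _ _) (by rw [ec, hu]; exact h2)
        (by rw [eΔ]; exact_mod_cast hΔ) (by rw [eΔ, hu]; exact not_not.2 h1), hres,
        splitNode_equiv]
      split_ifs with h3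
      · have := Sg.card_split _ z1 z2 h3
        rw [show (p : ℤ) + 0 - np W p = 1 by rw [np]; omega]
        simp
      · have := Sg.card_nonsplit _ z1 h3
        rw [show (p : ℤ) + 0 - np W p = -1 by rw [np]; omega]
        simp
  · have : (W.map (Int.castRingHom (ZMod p))).IsElliptic := ⟨by
      rw [eΔ', isUnit_iff_ne_zero, Ne, ZMod.intCast_zmod_eq_zero_iff_dvd]
      exact h1⟩
    rw [ep, if_neg h1, M1.pfLocGood p R K h _ 1 (W.map (Int.castRingHom R)) (one_smul _ _)
      (by rw [eΔ, hu]; exact h1), hres, affCard_equiv, np, M1.card_point, one_mul]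
    push_cast
    rw [add_sub_add_right_eq_sub]

end dvr

end Np

variable (W : WeierstrassCurve ℤ) (hΔ : W.Δ ≠ 0)
  (hm : GlobalMinimal (W.map (Int.castRingHom ℚ))) {p : ℕ} (hp : p.Prime)

include hΔ hm

/-- **the local polynomial of a global minimal equation** -/
theorem lp_np : Lf.lp (W.map (Int.castRingHom ℚ)) p hp =
    1 - C ((p : ℤ) + ep W p - np W p) * X + C (ep W p * p) * X ^ 2 := by
  rw [← Np.loc (K := (pl p hp).adicCompletion ℚ) (M2.pfLoc p hp) W hΔ hm, Lf.lp, baseChange,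
    WeierstrassCurve.map_map, WeierstrassCurve.map_map,
    RingHom.ext_int ((algebraMap ℚ _).comp _) (RingHom.comp _ _)]

include hp in
theorem lf_all : (W.map (Int.castRingHom ℚ)).LFunction p = (p : ℤ) + ep W p - np W p ∧
    ∀ k : ℕ, (W.map (Int.castRingHom ℚ)).LFunction (p ^ (k + 2)) =
      ((p : ℤ) + ep W p - np W p) * (W.map (Int.castRingHom ℚ)).LFunction (p ^ (k + 1)) -
        ep W p * p * (W.map (Int.castRingHom ℚ)).LFunction (p ^ k) := by
  have h := M2.inv_quad (Lf.lp (W.map (Int.castRingHom ℚ)) p hp) (-((p : ℤ) + ep W p - np W p))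
    (ep W p * p) (by rw [lp_np W hΔ hm hp, map_neg]; ring)
  obtain ⟨-, h1, h2⟩ := h
  refine ⟨?_, fun k => ?_⟩
  · rw [← pow_one p, lf_pow _ p hp, h1, pow_one, neg_neg]
  · rw [lf_pow _ p hp, lf_pow _ p hp, lf_pow _ p hp, h2]
    ring

include hp in
/-- `a_p = p + ε_p - n_p` -/
theorem lf_p : (W.map (Int.castRingHom ℚ)).LFunction p = (p : ℤ) + ep W p - np W p :=
  (lf_all W hΔ hm hp).1

include hp in
/-- the Hecke relation at every prime `p` -/
theorem lf_rel (n : ℕ) : (W.map (Int.castRingHom ℚ)).LFunction (p * n) =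
    ((p : ℤ) + ep W p - np W p) * (W.map (Int.castRingHom ℚ)).LFunction n -
      if p ∣ n then ep W p * p * (W.map (Int.castRingHom ℚ)).LFunction (n / p) else 0 := by
  obtain ⟨h1, h2⟩ := lf_all W hΔ hm hp
  have hmul := lf_mul (W.map (Int.castRingHom ℚ))
  rcases eq_or_ne n 0 with rfl | hn
  · simp
  obtain ⟨k, m, hm', rfl⟩ := Nat.exists_eq_pow_mul_and_not_dvd hn p hp.ne_one
  have hc : ∀ j : ℕ, (p ^ j).Coprime m := fun j =>
    ((Nat.Prime.coprime_iff_not_dvd hp).2 hm').pow_left j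
  rw [← mul_assoc, ← pow_succ', hmul.map_mul_of_coprime (hc _), hmul.map_mul_of_coprime (hc _)]
  rcases k with _ | k
  · rw [pow_zero, one_mul, if_neg hm', zero_add, pow_one, h1, hmul.map_one]
    ring
  · rw [if_pos ((dvd_pow_self p k.succ_ne_zero).mul_right m), h2, pow_succ' p k, mul_assoc p,
      Nat.mul_div_cancel_left _ hp.pos, hmul.map_mul_of_coprime (hc _)]
    ring

omit hΔ hm in
include hp in
theorem np_pos : 0 < np W p := by
  have : Fact p.Prime := ⟨hp⟩
  have : Finite (W.map (Int.castRingHom (ZMod p))).toAffine.Point := by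
    refine Finite.of_injective (β := Option (ZMod p × ZMod p)) (fun P => match P with
      | .zero => none
      | .some x y _ => some (x, y)) ?_
    rintro (_ | ⟨x, y, h⟩) (_ | ⟨x', y', h'⟩) e
    · rfl
    · cases e
    · cases e
    · cases e
      rfl
  exact Nat.card_pos

omit hΔ hm in
/-- an integral equation comes from `ℤ` -/
theorem ex_int {E : WeierstrassCurve ℚ} (h : E.IsIntegral ℤ) :
    ∃ W : WeierstrassCurve ℤ, E = W.map (Int.castRingHom ℚ) := h.integral

omit hΔ hm in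
/-- existence of global minimal equations -/
theorem ex_min (E : WeierstrassCurve ℚ) : ∃ D : VariableChange ℚ, GlobalMinimal (D • E) := by
  classical
  have h0 : ∃ n : ℕ, ∃ D : VariableChange ℚ, (D • E).IsIntegral ℤ ∧ |(D • E).Δ| = n := by
    obtain ⟨d, hd, h1, h2, h3, h4, h6⟩ : ∃ d : ℕ, d ≠ 0 ∧ E.a₁.den ∣ d ∧ E.a₂.den ∣ d ∧
        E.a₃.den ∣ d ∧ E.a₄.den ∣ d ∧ E.a₆.den ∣ d :=
      ⟨E.a₁.den * E.a₂.den * E.a₃.den * E.a₄.den * E.a₆.den, by positivity,
        ⟨_, by rw [mul_assoc, mul_assoc, mul_assoc]⟩,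
        Dvd.dvd.mul_right (Dvd.dvd.mul_right (Dvd.dvd.mul_right (dvd_mul_left _ _) _) _) _,
        Dvd.dvd.mul_right (Dvd.dvd.mul_right (dvd_mul_left _ _) _) _,
        Dvd.dvd.mul_right (dvd_mul_left _ _) _, dvd_mul_left _ _⟩
    have hd' : (d : ℚ) ≠ 0 := by exact_mod_cast hd
    have k : ∀ (a : ℚ) (i : ℕ), a.den ∣ d → ∃ z : ℤ, algebraMap ℤ ℚ z = (d : ℚ) ^ (i + 1) * a := by
      rintro a i ⟨c, hc⟩
      refine ⟨d ^ i * c * a.num, ?_⟩
      have hc' : (d : ℚ) = a.den * c := by exact_mod_cast hc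
      rw [eq_intCast, pow_succ]
      push_cast
      rw [← Rat.mul_den_eq_num a]
      linear_combination -(d : ℚ) ^ i * a * hc'
    have hI : (((⟨(Units.mk0 (d : ℚ) hd')⁻¹, 0, 0, 0⟩ : VariableChange ℚ)) • E).IsIntegral ℤ := by
      refine isIntegral_of_exists_lift ℤ ?_ ?_ ?_ ?_ ?_
      · simpa [variableChange_a₁] using k _ 0 h1
      · simpa [variableChange_a₂] using k _ 1 h2
      · simpa [variableChange_a₃] using k _ 2 h3
      · simpa [variableChange_a₄] using k _ 3 h4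
      · simpa [variableChange_a₆] using k _ 5 h6
    obtain ⟨r, hr⟩ := @Δ_integral_of_isIntegral ℤ _ ℚ _ _ _ hI
    exact ⟨r.natAbs, _, hI, by rw [← hr, eq_intCast, Nat.cast_natAbs, Int.cast_abs]⟩
  obtain ⟨D, h1, h2⟩ := Nat.find_spec h0
  refine ⟨D, h1, fun D' h3 => ?_⟩
  obtain ⟨r, hr⟩ := @Δ_integral_of_isIntegral ℤ _ ℚ _ _ _ h3
  have h4 : |(D' • D • E).Δ| = (r.natAbs : ℕ) := by
    rw [← hr, eq_intCast, Nat.cast_natAbs, Int.cast_abs]
  rw [h2, h4, Nat.cast_le]
  exact Nat.find_min' h0 ⟨D' * D, by rw [mul_smul]; exact h3, by rw [mul_smul]; exact h4⟩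

end Vale.Agent.P014T.Lc
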