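import Vale.Agent.P014F.Tam

/-!
# P014T: the product of the Tamagawa numbers is a finite product
-/

namespace Vale.Agent.P014T.Lc

open Vale.Agent.P014

/-- the Tamagawa number as a function of a natural number -/
noncomputable def tm (E : WeierstrassCurve ℚ) (p : ℕ) : ℕ :=
  if h : p.Prime then haveI : Fact p.Prime := ⟨h⟩; tamagawa E p else 1

theorem tm_eq (E : WeierstrassCurve ℚ) (p : ℕ) [h : Fact p.Prime] : tm E p = tamagawa E p :=
  dif_pos h.out

theorem tm_not (E : WeierstrassCurve ℚ) {p : ℕ} (h : ¬ p.Prime) : tm E p = 1 := dif_neg h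

theorem tm_good (W : WeierstrassCurve ℤ) {p : ℕ} (h : ¬ (p : ℤ) ∣ W.Δ) :
    tm (W.map (Int.castRingHom ℚ)) p = 1 := by
  rw [tm]
  split_ifs with hp
  · exact @P014F.tam_one p ⟨hp⟩ W h
  · rfl

/-- **the Tamagawa product over a finite set containing the bad primes** -/
theorem tam_prod (W : WeierstrassCurve ℤ) (S : Finset ℕ)
    (hS : ∀ p : ℕ, p.Prime → (p : ℤ) ∣ W.Δ → p ∈ S) :
    tamagawaProduct (W.map (Int.castRingHom ℚ)) = ∏ p ∈ S, tm (W.map (Int.castRingHom ℚ)) p := by
  have e : tamagawaProduct (W.map (Int.castRingHom ℚ)) =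
      ∏ᶠ p : Nat.Primes, tm (W.map (Int.castRingHom ℚ)) p.1 :=
    finprod_congr fun p => (@tm_eq _ p.1 ⟨p.2⟩).symm
  rw [e, ← finprod_eq_prod_of_mulSupport_subset (s := S)]
  · refine finprod_set_coe_eq_finprod_mem (f := tm (W.map (Int.castRingHom ℚ))) {p | p.Prime}
      |>.trans (finprod_congr fun p => ?_)
    by_cases hp : p.Prime
    · exact finprod_eq_if.trans (if_pos hp)
    · exact (finprod_eq_if.trans (if_neg hp)).trans (tm_not _ hp).symm
  · intro p hp
    by_contra h
    refine hp ?_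
    by_cases h1 : p.Prime
    · exact tm_good W fun h2 => h (hS p h1 h2)
    · exact tm_not _ h1

/-- the same over the prime factors of a multiple of the discriminant -/
theorem tam_prod' (W : WeierstrassCurve ℤ) {B : ℕ} (hB : B ≠ 0)
    (h : ∀ p : ℕ, p.Prime → (p : ℤ) ∣ W.Δ → p ∣ B) :
    tamagawaProduct (W.map (Int.castRingHom ℚ)) =
      ∏ p ∈ B.primeFactors, tm (W.map (Int.castRingHom ℚ)) p :=
  tam_prod W _ fun p hp k => Nat.mem_primeFactors.2 ⟨hp, h p hp k, hB⟩

end Vale.Agent.P014T.Lc
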