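import Mathlib

/-! # P014T, local points: groups with a logarithm -/

set_option linter.all false

noncomputable section

namespace Vale.Agent.P014T.Lc

theorem card_pp (T : Type) [AddCommGroup T] [Finite T] (q : ℕ) [Fact q.Prime] :
    Nat.card {y : T // ∃ k : ℕ, q ^ k • y = 0} = q ^ padicValNat q (Nat.card T) := by
  obtain ⟨Q, h⟩ := (CommGroup.primaryComponent.isPGroup (G := Multiplicative T)
    (p := q)).exists_le_sylow
  have := Q.card_eq_multiplicity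
  rw [Nat.factorization_def _ Fact.out] at this
  refine .trans (Nat.card_congr (Multiplicative.ofAdd.subtypeEquiv fun y => ⟨fun k =>
    h (CommGroup.mem_primaryComponent.2 k), fun k => (Q.2 ⟨_, k⟩).imp fun n e => ?_⟩)) this
  exact congrArg Subtype.val e

theorem split_pp {T : Type} [AddCommGroup T] {t : T} (h : IsOfFinAddOrder t) {q : ℕ}
    (hq : q.Prime) : ∃ a b : T, (∃ k : ℕ, q ^ k • a = 0) ∧ t = a + q • b := by
  obtain ⟨n, n0, e⟩ := h.exists_nsmul_eq_zero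
  obtain ⟨k, m, c, rfl⟩ := Nat.exists_eq_pow_mul_and_not_dvd n0.ne' q hq.ne_one
  obtain ⟨a, b, d⟩ := Nat.isCoprime_iff_coprime.2 ((hq.coprime_iff_not_dvd).2 c)
  refine ⟨b • m • t, a • t, ⟨k, by rw [smul_comm, ← mul_smul, e, smul_zero]⟩, ?_⟩
  rw [← natCast_zsmul, ← natCast_zsmul, ← mul_smul, ← mul_smul, ← add_smul,
    show b * m + q * a = 1 by linear_combination d, one_smul]

variable {p : ℕ} [hp : Fact p.Prime] {G : Type} [AddCommGroup G]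

/-- `lg` is an isomorphism from a subgroup of index `N` to `p² ℤ_p` -/
structure Vl (lg : G →+ ℚ_[p]) (U : AddSubgroup G) : Prop where
  fin : U.index ≠ 0
  inj : ∀ x ∈ U, lg x = 0 → x = 0
  sj : ∀ c, ‖c‖ < ‖(p : ℚ_[p])‖ ↔ ∃ x ∈ U, lg x = c

namespace Vl

variable {lg : G →+ ℚ_[p]} {U : AddSubgroup G} (h : Vl lg U)
include h

theorem ker (x : G) : lg x = 0 ↔ IsOfFinAddOrder x := by
  refine ⟨fun e => isOfFinAddOrder_iff_nsmul_eq_zero.2 ⟨_, Nat.pos_of_ne_zero h.fin,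
    h.inj _ (U.nsmul_index_mem x) (by rw [map_nsmul, e, smul_zero])⟩, fun e => ?_⟩
  obtain ⟨n, n0, e⟩ := e.exists_nsmul_eq_zero
  have := congrArg lg e
  rw [map_nsmul, map_zero, nsmul_eq_mul] at this
  exact (mul_eq_zero.1 this).resolve_left (Nat.cast_ne_zero.2 n0.ne')

theorem rel : U.relIndex lg.ker = Nat.card lg.ker := by
  rw [← AddSubgroup.inf_relIndex_right, show U ⊓ lg.ker = ⊥ from
    eq_bot_iff.2 fun x k => h.inj x k.1 k.2, AddSubgroup.relIndex_bot_left]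

theorem finite : Finite lg.ker := Nat.finite_of_card_ne_zero (h.rel ▸ fun e => h.fin
  (by simpa using AddSubgroup.relIndex_eq_zero_of_le_right le_top e))

omit h in
theorem ball (c : ℚ_[p]) : ‖c‖ < ‖(p : ℚ_[p])‖ ↔ ‖c‖ ≤ (p : ℝ) ^ (-2 : ℤ) := by
  rw [Padic.norm_le_pow_iff_norm_lt_pow_add_one, Padic.norm_p]
  norm_num

/-- **the volume formula** -/
theorem vol : ∃ (j : ℕ) (y₀ : G), ‖lg y₀‖ = (p : ℝ) ^ ((j : ℤ) - 2) ∧
    (∀ c, ‖c‖ ≤ ‖lg y₀‖ ↔ ∃ y, lg y = c) ∧ U.index = Nat.card lg.ker * p ^ j := by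
  have p1 : (1 : ℝ) < p := by exact_mod_cast hp.out.one_lt
  have p0 : (0 : ℝ) < p := by positivity
  have ex : ∃ j : ℕ, ∀ y, ‖lg y‖ ≤ (p : ℝ) ^ ((j : ℤ) - 2) := by
    have N : (U.index : ℚ_[p]) ≠ 0 := Nat.cast_ne_zero.2 h.fin
    obtain ⟨j, e⟩ := pow_unbounded_of_one_lt ‖(U.index : ℚ_[p])‖⁻¹ p1
    refine ⟨j, fun y => ?_⟩
    have := (ball _).1 ((h.sj _).2 ⟨_, U.nsmul_index_mem y, rfl⟩)
    rw [map_nsmul, nsmul_eq_mul, norm_mul, ← le_inv_mul_iff₀ (norm_pos_iff.2 N)] at this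
    rw [sub_eq_add_neg, zpow_add₀ p0.ne', zpow_natCast]
    exact this.trans (by gcongr)
  obtain ⟨j, b, y₀, e⟩ : ∃ j : ℕ, (∀ y, ‖lg y‖ ≤ (p : ℝ) ^ ((j : ℤ) - 2)) ∧
      ∃ y, ‖lg y‖ = (p : ℝ) ^ ((j : ℤ) - 2) := by
    classical
    refine ⟨_, Nat.find_spec ex, ?_⟩
    rcases e : Nat.find ex with _ | j
    · obtain ⟨x, -, k⟩ := (h.sj (p ^ 2)).1 ((ball _).2 (by simp [zpow_neg]))
      exact ⟨x, by simp [k, zpow_neg]⟩
    · obtain ⟨y, k⟩ := not_forall.1 (Nat.find_min ex (m := j) (by omega))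
      refine ⟨y, le_antisymm (e ▸ Nat.find_spec ex y) ?_⟩
      rw [Padic.norm_le_pow_iff_norm_lt_pow_add_one, not_lt] at k
      exact (congrArg _ (by push_cast; ring)).trans_le k
  have n0 : lg y₀ ≠ 0 := norm_pos_iff.1 (e ▸ zpow_pos p0 _)
  have s : ∀ a : ℤ_[p], ‖a * lg y₀‖ < ‖(p : ℚ_[p])‖ ↔ a ∈ RingHom.ker (PadicInt.toZModPow j) :=
    fun a => by
      rw [PadicInt.ker_toZModPow, ← PadicInt.norm_le_pow_iff_mem_span_pow, ball, norm_mul, e,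
        ← le_div_iff₀ (zpow_pos p0 _), ← zpow_sub₀ p0.ne', show -2 - ((j : ℤ) - 2) = -j by ring]
      rfl
  have r : ∀ c, ‖c‖ ≤ ‖lg y₀‖ ↔ ∃ y, lg y = c := fun c => ⟨fun k => by
    let a : ℤ_[p] := ⟨c / lg y₀, by rw [norm_div]; exact div_le_one_of_le₀ k (norm_nonneg _)⟩
    obtain ⟨x, -, m⟩ := (h.sj _).1 ((s (a - (PadicInt.toZModPow j a).val)).2 (by
      have := NeZero.mk (pow_ne_zero j hp.out.ne_zero)
      simp [RingHom.mem_ker]))
    refine ⟨x + (PadicInt.toZModPow j a).val • y₀, ?_⟩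
    rw [map_add, m, map_nsmul, nsmul_eq_mul]
    push_cast
    simp only [a]
    field_simp
    ring, fun ⟨y, k⟩ => by rw [← k, e]; exact b y⟩
  refine ⟨j, y₀, e, r, ?_⟩
  let f : ℤ_[p] →+ ℚ_[p] := (AddMonoidHom.mulRight (lg y₀)).comp PadicInt.Coe.ringHom.toAddMonoidHom
  have e1 : lg.range = f.range := AddSubgroup.ext fun c => (r c).symm.trans ⟨fun k =>
    ⟨⟨c / lg y₀, by rw [norm_div]; exact div_le_one_of_le₀ k (norm_nonneg _)⟩,
      div_mul_cancel₀ _ n0⟩, fun ⟨a, k⟩ => by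
    rw [← k]
    exact (norm_mul _ _).trans_le (mul_le_of_le_one_left (norm_nonneg _) a.2)⟩
  have e2 : (U.map lg).comap f = (PadicInt.toZModPow j).toAddMonoidHom.ker :=
    AddSubgroup.ext fun a => (h.sj _).symm.trans (s a)
  rw [← AddSubgroup.relIndex_mul_index (le_sup_left : U ≤ U ⊔ lg.ker), AddSubgroup.relIndex_sup_left,
    h.rel, ← AddSubgroup.comap_map_eq, AddSubgroup.index_comap, e1, ← AddSubgroup.index_comap, e2,
    AddSubgroup.index_ker, AddMonoidHom.range_eq_top.2, AddSubgroup.card_top, Nat.card_zmod]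
  exact ZMod.ringHom_surjective _

theorem card_tp (q : ℕ) [Fact q.Prime] : Nat.card {y : G // ∃ k : ℕ, q ^ k • y = 0} =
    q ^ padicValNat q (Nat.card lg.ker) := by
  have := h.finite
  rw [← card_pp]
  exact Nat.card_congr ⟨fun y => ⟨⟨y.1, y.2.elim fun k e => (h.ker _).2
    (isOfFinAddOrder_iff_nsmul_eq_zero.2 ⟨_, pow_pos (Fact.out : q.Prime).pos k, e⟩)⟩,
      y.2.imp fun _ => Subtype.ext⟩, fun y => ⟨y.1.1, y.2.imp fun _ => congrArg Subtype.val⟩,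
    fun _ => rfl, fun _ => rfl⟩

theorem sat {y₀ : G} (r : ∀ c, ‖c‖ ≤ ‖lg y₀‖ ↔ ∃ y, lg y = c) {q : ℕ} (hq : q.Prime) {y : G}
    (k : ‖lg y‖ ≤ ‖(q : ℚ_[p])‖ * ‖lg y₀‖) : ∃ a b : G, (∃ k : ℕ, q ^ k • a = 0) ∧ y = a + q • b := by
  have q0 : (q : ℚ_[p]) ≠ 0 := Nat.cast_ne_zero.2 hq.ne_zero
  obtain ⟨g, e⟩ := (r (lg y / q)).1 (by rwa [norm_div, div_le_iff₀' (norm_pos_iff.2 q0)])
  obtain ⟨a, b, m, n⟩ := split_pp ((h.ker (y - q • g)).1 (by
    rw [map_sub, map_nsmul, e, nsmul_eq_mul, mul_div_cancel₀ _ q0, sub_self])) hq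
  exact ⟨a, b + g, m, by rw [smul_add, ← add_assoc, ← n, sub_add_cancel]⟩

end Vl

end Vale.Agent.P014T.Lc
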