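import Vale.Agent.P014T.Lc.Log
import Vale.Agent.P014T.Lc.Vol
import Vale.Agent.P014T.Lc.Np
import Vale.Agent.P014T.Ht.Vc
import Vale.Agent.P014.Defs

/-! # P014T, local points: the points over `ℚ_p` -/

set_option linter.all false

open scoped Classical NNReal Topology
open WeierstrassCurve WeierstrassCurve.Affine P179W Filter

noncomputable section

namespace Vale.Agent.P014T.Lc

open Vale.Agent.P014T.Vc Vale.Agent.P014

theorem e0_top {K Γ R : Type} [Field K] [LinearOrderedCommGroupWithZero Γ] {v : Valuation K Γ}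
    [Field R] {r : K → R} {E : WeierstrassCurve K} {Eb : WeierstrassCurve R}
    (hc : CoeffIn E {z | v z ≤ 1}) (h : Rd v r E Eb) (hΔ : Eb.Δ ≠ 0) : E0 hc = ⊤ := by
  obtain ⟨E₀, ρ, rfl, rfl, -, hρ⟩ := h.model hc
  refine eq_top_iff.2 fun P _ => by_contra fun k => ?_
  obtain ⟨x, y, h, rfl⟩ := exists_int (mt ns_ker k)
  exact k ((ns_int hρ h).2 (nonsing_of_Δ hΔ (red_eq h.1)))

section

variable {K : Type} [NormedField K] [IsUltrametricDist K] {E : WeierstrassCurve K}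
  (hc : CoeffIn E {z | nv K z ≤ 1})

theorem fin1 [ProperSpace K] (hΔ : E.Δ ≠ 0) : (E1 hc).index ≠ 0 := by
  obtain ⟨t, -, ft, ct⟩ := finite_cover_balls_of_compact (isCompact_closedBall (0 : K) 1)
    (norm_pos_iff.2 hΔ)
  have := ft.to_subtype
  have g : ∀ x : K, nv K x ≤ 1 → ∃ a : t, nv K (x - a) < nv K E.Δ := fun x k => by
    obtain ⟨a, m, e⟩ := Set.mem_iUnion₂.1 (ct (mem_closedBall_zero_iff.2 k))
    exact ⟨⟨a, m⟩, mem_ball_iff_norm.1 e⟩
  have H : ∀ P : E.toAffine.Point, ∃ o : Option (t × t), KerV (nv K) P ∧ o = none ∨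
      ∃ x y h a b, P = .some x y h ∧ nv K x ≤ 1 ∧ nv K (x - a.1) < nv K E.Δ ∧
        nv K (y - b.1) < nv K E.Δ ∧ o = some (a, b) := by
    rintro (_ | ⟨x, y, h⟩)
    · exact ⟨_, .inl ⟨trivial, rfl⟩⟩
    by_cases k : nv K x ≤ 1
    · obtain ⟨a, ha⟩ := g x k
      obtain ⟨b, hb⟩ := g y (y_int hc h.1 k)
      exact ⟨_, .inr ⟨x, y, h, a, b, rfl, k, ha, hb, rfl⟩⟩
    · exact ⟨_, .inl ⟨k, rfl⟩⟩
  choose f hf using H
  refine @AddSubgroup.index_ne_zero_of_finite _ _ _ (Finite.of_injective (fun q => f q.out)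
    fun q q' e => ?_)
  rw [← q.out_eq', ← q'.out_eq', QuotientAddGroup.eq, neg_add_eq_sub]
  rcases hf q.out with ⟨d, d'⟩ | ⟨x, y, h, a, b, e1, k1, a1, b1, e2⟩ <;>
    rcases hf q'.out with ⟨c, c'⟩ | ⟨x', y', h', a', b', e3, k2, a2, b2, e4⟩
  · exact (E1 hc).sub_mem c d
  · cases d'.symm.trans (e.trans e4)
  · cases c'.symm.trans (e.symm.trans e2)
  · cases e2.symm.trans (e.trans e4)
    rw [e1, e3]
    refine near hc h' h k2 k1 ?_ ?_
    · simpa using (nv K).map_sub_lt a2 a1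
    · simpa using (nv K).map_sub_lt b2 b1

variable {K' : Type} [NormedField K'] [IsUltrametricDist K'] {E' : WeierstrassCurve K'}
  (hc' : CoeffIn E' {z | nv K' z ≤ 1}) {σ : K →+* K'} (hσ : ∀ x, ‖σ x‖ = ‖x‖) {u r s t : K'}
  (H : Ch (E.map σ) E' u r s t) {p : ℕ} {lg : E.toAffine.Point →+ K} {lg' : E'.toAffine.Point →+ K'}

include hc hc' hσ in
/-- **change of the model and of the field** -/
theorem Lg.comp (h : Lg p E lg) (h' : Lg p E' lg') (p1 : ‖(p : K)‖ < 1) {P : E.toAffine.Point}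
    (k : KerV (nv K) P) (m : ‖zf P‖ < ‖(p : K)‖) : u * lg' (vm σ H P) = σ (lg P) := by
  have p0 : 0 < ‖(p : K)‖ := (norm_nonneg _).trans_lt m
  have e0 : ‖(p : K')‖ = ‖(p : K)‖ := by rw [← hσ, map_natCast]
  have p2 : (p : K') ≠ 0 := norm_pos_iff.1 (e0 ▸ p0)
  have u3 := pow_ne_zero 3 H.ne
  let ξ : E.toAffine.Point → K := fun Q => match Q with
    | 0 => 0
    | .some x _ _ => x⁻¹
  have a : ∀ Q, KerV (nv K) Q → ‖ξ Q‖ = ‖zf Q‖ ^ 2 ∧ zf (vm σ H Q) =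
      σ (zf Q) * ((u ^ 2 + r * σ (ξ Q)) / (u ^ 3 - σ (zf Q) * (u ^ 2 * s + t * σ (ξ Q)))) ∧
      (‖σ (ξ Q)‖ < ‖u ^ 2 + r * σ (ξ Q)‖ → KerV (nv K') (vm σ H Q)) := by
    rintro (_ | ⟨x, y, n⟩) k
    · exact ⟨by simp [ξ, zf], show (0 : K') = σ 0 * _ by simp, fun _ => trivial⟩
    obtain ⟨x0, y0, e, -⟩ := bas hc n.1 (not_le.1 k)
    have x1 := (map_ne_zero σ).2 x0
    have y1 := (map_ne_zero σ).2 y0
    refine ⟨?_, ?_, fun c => not_le.2 ?_⟩
    · rw [show ξ (.some x y n) = x⁻¹ from rfl, norm_inv]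
      exact inv_eq_of_mul_eq_one_right (congrArg NNReal.toReal e)
    · change -(u ^ 2 * σ x + r) / (u ^ 3 * σ y + u ^ 2 * s * σ x + t) =
        σ (-x / y) * ((u ^ 2 + r * σ x⁻¹) / (u ^ 3 - σ (-x / y) * (u ^ 2 * s + t * σ x⁻¹)))
      rw [map_div₀, map_neg, map_inv₀, ← mul_div_assoc, ← div_div_div_cancel_right₀ y1]
      congr 1 <;> field_simp
      ring
    · change ‖σ x⁻¹‖ < ‖u ^ 2 + r * σ x⁻¹‖ at c
      change 1 < ‖u ^ 2 * σ x + r‖
      rwa [map_inv₀, show u ^ 2 + r * (σ x)⁻¹ = (σ x)⁻¹ * (u ^ 2 * σ x + r) by field_simp, norm_mul,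
        lt_mul_iff_one_lt_right (norm_pos_iff.2 (inv_ne_zero x1))] at c
  have b := fun n : ℕ => a _ ((E1 hc).nsmul_mem k (p ^ n))
  have c : Continuous σ := (AddMonoidHomClass.isometry_of_norm σ hσ).continuous
  have t0 : Tendsto (fun n : ℕ => σ (zf (p ^ n • P)) / p ^ n) atTop (𝓝 (σ (lg P))) := by
    simpa [Function.comp_def] using (c.tendsto _).comp (h.tendsto hc p1 k m)
  have t1 : Tendsto (fun n : ℕ => σ (zf (p ^ n • P))) atTop (𝓝 0) := by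
    simpa only [mul_zero] using (t0.mul (tendsto_pow_atTop_nhds_zero_of_norm_lt_one (e0 ▸ p1))).congr
      fun n => div_mul_cancel₀ _ (pow_ne_zero _ p2)
  have t2 : Tendsto (fun n : ℕ => σ (ξ (p ^ n • P))) atTop (𝓝 0) := by
    rw [tendsto_zero_iff_norm_tendsto_zero]
    simpa only [hσ, (b _).1, norm_zero, zero_pow two_ne_zero] using t1.norm.pow 2
  have t3 := (t2.const_mul r).const_add (u ^ 2)
  have t4 := t3.div ((t1.mul ((t2.const_mul t).const_add (u ^ 2 * s))).const_sub (u ^ 3))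
    (by simpa using H.ne)
  have t5 := t1.mul t4
  have t6 := t0.mul t4
  simp only [Pi.div_apply, div_mul_eq_mul_div, ← (b _).2.1, zero_mul, mul_zero, add_zero, sub_zero,
    zero_div] at t5 t6
  obtain ⟨n, k1, k2⟩ := ((t2.norm.eventually_lt t3.norm (by simpa using pow_pos (norm_pos_iff.2 H.ne) 2)).and
    (t5.norm.eventually_lt_const (show _ < ‖(p : K')‖ by simpa using p2))).exists
  have t7 := h'.tendsto hc' (e0 ▸ p1) ((b n).2.2 k1) k2
  have t8 := ((tendsto_add_atTop_iff_nat n).2 t6).mul_const ((p : K') ^ n)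
  have := tendsto_nhds_unique t7 (t8.congr fun j => by
    rw [← map_nsmul, ← mul_smul, ← pow_add, pow_add (p : K')]; field_simp)
  rw [map_nsmul, map_nsmul, nsmul_eq_mul, Nat.cast_pow] at this
  have := H.ne
  field_simp at *
  linear_combination this

end

variable (W : WeierstrassCurve ℤ) (p : ℕ) [hp : Fact p.Prime]

/-- the curve over `ℚ` -/
abbrev Wq : WeierstrassCurve ℚ := W.map (Int.castRingHom ℚ)

/-- the curve over `ℚ_p` -/
abbrev Wp : WeierstrassCurve ℚ_[p] := WeierstrassCurve.baseChange (Wq W) ℚ_[p]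

theorem cfp : CoeffIn (Wp W p) {z | nv ℚ_[p] z ≤ 1} := by
  have : ∀ a : ℤ, nv ℚ_[p] (algebraMap ℚ ℚ_[p] (Int.castRingHom ℚ a)) ≤ 1 := fun a => by
    rw [eq_intCast, map_intCast]; exact intCast_mem (nv ℚ_[p]).integer a
  exact ⟨this _, this _, this _, this _, this _⟩

/-- reduction modulo `p` -/
def rp (x : ℚ_[p]) : ZMod p := if h : ‖x‖ ≤ 1 then PadicInt.toZMod ⟨x, h⟩ else 0

theorem rp_coe (x : ℤ_[p]) : rp p x = PadicInt.toZMod x := dif_pos x.2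

theorem rdp : Rd (nv ℚ_[p]) (rp p) (Wp W p) (W.map (Int.castRingHom (ZMod p))) := by
  have : ∀ a : ℤ, Int.castRingHom (ZMod p) a = rp p (algebraMap ℚ ℚ_[p] (Int.castRingHom ℚ a)) :=
    fun a => by rw [eq_intCast, eq_intCast, map_intCast, ← PadicInt.coe_intCast, rp_coe, map_intCast]
  refine ⟨by simpa using rp_coe p 1, fun a b ha hb => ?_, fun a b ha hb => ?_, fun a ha => ?_,
    this _, this _, this _, this _, this _⟩
  · obtain ⟨a, rfl⟩ : ∃ c : ℤ_[p], c = a := ⟨⟨a, ha⟩, rfl⟩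
    obtain ⟨b, rfl⟩ : ∃ c : ℤ_[p], c = b := ⟨⟨b, hb⟩, rfl⟩
    rw [← PadicInt.coe_add, rp_coe, rp_coe, rp_coe, map_add]
  · obtain ⟨a, rfl⟩ : ∃ c : ℤ_[p], c = a := ⟨⟨a, ha⟩, rfl⟩
    obtain ⟨b, rfl⟩ : ∃ c : ℤ_[p], c = b := ⟨⟨b, hb⟩, rfl⟩
    rw [← PadicInt.coe_mul, rp_coe, rp_coe, rp_coe, map_mul]
  · obtain ⟨a, rfl⟩ : ∃ c : ℤ_[p], c = a := ⟨⟨a, ha⟩, rfl⟩
    rw [rp_coe, ← RingHom.mem_ker, PadicInt.ker_toZMod, IsLocalRing.mem_maximalIdeal,
      PadicInt.mem_nonunits]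
    rfl

theorem rp_sj (c : ZMod p) : ∃ a, nv ℚ_[p] a ≤ 1 ∧ rp p a = c := by
  obtain ⟨a, rfl⟩ := ZMod.ringHom_surjective PadicInt.toZMod c
  exact ⟨a, a.2, rp_coe p a⟩

theorem tam_eq : tamagawa (Wq W) p = (E0 (cfp W p)).index := by
  rw [tamagawa, ← (E0 (cfp W p)).closure_eq]
  congr 2
  ext (_ | ⟨x, y, h⟩)
  · rfl
  · refine or_congr not_le.symm (or_congr ?_ not_lt.symm)
    rw [← norm_neg, neg_sub]
    exact not_lt.symm

/-- good reduction -/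
theorem tam_good (h : ¬ (p : ℤ) ∣ W.Δ) : tamagawa (Wq W) p = 1 := by
  rw [tam_eq, e0_top _ (rdp W p), AddSubgroup.index_top]
  rwa [map_Δ, eq_intCast, Ne, ZMod.intCast_zmod_eq_zero_iff_dvd]

variable {W} (hΔ : W.Δ ≠ 0)
include hΔ

theorem dp : (Wp W p).Δ ≠ 0 := by
  simpa [WeierstrassCurve.baseChange] using hΔ

theorem tam_ne : tamagawa (Wq W) p ≠ 0 := fun e => fin1 (cfp W p) (dp p hΔ)
  (Nat.eq_zero_of_zero_dvd (e ▸ tam_eq W p ▸ AddSubgroup.index_dvd_of_le fun _ => ns_ker))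

omit hΔ in
theorem p_pos : 0 < nv ℚ_[p] p := zero_lt_iff.2 ((map_ne_zero _).2 (Nat.cast_ne_zero.2 hp.out.ne_zero))

theorem idx : (Fo (cfp W p) _ (p_pos p)).index = tamagawa (Wq W) p * np W p * p := by
  have e : Fl (cfp W p) (nv ℚ_[p] p) = E1 (cfp W p) := AddSubgroup.ext fun P =>
    and_iff_left_of_imp fun k => show ‖zf P‖ ≤ ‖(p : ℚ_[p])‖ by
      rw [Padic.norm_p, ← zpow_neg_one, Padic.norm_le_pow_iff_norm_lt_pow_add_one]
      simpa using show ‖zf P‖ < 1 from zf_lt (cfp W p) k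
  have := idx1 (cfp W p) (dp p hΔ) (rdp W p) (rp_sj p) (p_pos p) Padic.norm_p_lt_one
  rw [e, Nat.card_zmod] at this
  rw [← AddSubgroup.relIndex_mul_index (show Fo _ _ _ ≤ E1 (cfp W p) from fun _ k => k.1), this,
    ← AddSubgroup.relIndex_mul_index (show E1 _ ≤ E0 (cfp W p) from fun _ => ns_ker),
    idx0 (cfp W p) (dp p hΔ) (rdp W p) (rp_sj p), tam_eq, np]
  ring

variable {p} {lg : (Wp W p).toAffine.Point →+ ℚ_[p]}

theorem Lg.vl (h : Lg p _ lg) : Vl lg (Fo (cfp W p) _ (p_pos p)) := by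
  refine ⟨fun e => ?_, fun x k e => zf_eq_zero (cfp W p) k.1 (norm_eq_zero.1 ?_), fun c =>
    ⟨fun m => (h.surj (cfp W p) (dp p hΔ) m).imp fun P k => ⟨⟨k.1, k.2.1.trans_lt m⟩, k.2.2⟩,
      fun ⟨x, k, e⟩ => by rw [← e, h.norm (cfp W p) k.1 k.2]; exact k.2⟩⟩
  · rw [idx p hΔ] at e
    exact mul_ne_zero (mul_ne_zero (tam_ne p hΔ) (np_pos W hp.out).ne') hp.out.ne_zero e
  · rw [← h.norm (cfp W p) k.1 k.2, e, norm_zero]

/-- **the structure of the local points at the prime `q`** -/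
theorem Lg.vol (h : Lg p _ lg) (q : ℕ) [hq : Fact q.Prime] : ∃ y₀, lg y₀ ≠ 0 ∧
    (∀ y, ‖lg y‖ ≤ ‖lg y₀‖) ∧ (∀ y, ‖lg y‖ ≤ ‖(q : ℚ_[p])‖ * ‖lg y₀‖ →
      ∃ a b, (∃ k : ℕ, q ^ k • a = 0) ∧ y = a + q • b) ∧
    (Nat.card {y : (Wp W p).toAffine.Point // ∃ k : ℕ, q ^ k • y = 0} : ℝ) *
      (if q = p then ‖lg y₀‖ * p else 1) = q ^ padicValNat q (tamagawa (Wq W) p * np W p) := by
  have V := h.vl hΔ
  obtain ⟨j, y, a, b, c⟩ := V.vol
  have p0 : (0 : ℝ) < p := by exact_mod_cast hp.out.pos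
  refine ⟨y, norm_pos_iff.1 (a ▸ zpow_pos p0 _), fun y => (b _).2 ⟨y, rfl⟩,
    fun _ => V.sat b hq.out, ?_⟩
  have f := V.finite
  have := congrArg (padicValNat q) c
  rw [idx p hΔ, padicValNat.mul (mul_ne_zero (tam_ne p hΔ) (np_pos W hp.out).ne') hp.out.ne_zero,
    padicValNat.mul Nat.card_pos.ne' (pow_ne_zero _ hp.out.ne_zero), padicValNat.pow] at this
  rw [V.card_tp]
  split_ifs with e
  · subst e
    rw [padicValNat_self, mul_one] at this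
    rw [a, eq_comm, ← mul_left_inj' p0.ne', ← pow_succ, this, zpow_sub₀ p0.ne']
    push_cast
    field_simp
    simp [pow_add]
  · rw [padicValNat_primes e, mul_zero, add_zero, add_zero] at this
    simp [this]

end Vale.Agent.P014T.Lc
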