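import Vale.Agent.P014T.Lc.Qp
import Vale.Agent.P014T.Lc.Tam
import Vale.Agent.P014T.Ht.Sh

/-! # P014T, local points: the local factor under a change of the model over `ℚ_p` -/

set_option linter.all false

open scoped Classical
open WeierstrassCurve WeierstrassCurve.Affine P179W Polynomial

noncomputable section

namespace Vale.Agent.P014T.Lc

open Vale.Agent.P014T.Vc Vale.Agent.P014T.Sm Vale.Agent.P014

variable {W W' : WeierstrassCurve ℤ} {p : ℕ} [hp : Fact p.Prime]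

namespace V2

theorem ch_inv {F : Type} [Field F] {V E : WeierstrassCurve F} {u r s t : F} (h : Ch V E u r s t) :
    Ch E V u⁻¹ (-r / u ^ 2) (-s / u) ((r * s - t) / u ^ 3) := by
  obtain ⟨n, h1, h2, h3, h4, h6⟩ := h
  refine ⟨inv_ne_zero n, ?_, ?_, ?_, ?_, ?_⟩ <;> field_simp
  · linear_combination -h1
  · linear_combination -h2 - s * h1
  · linear_combination -h3 + r * h1
  · linear_combination -h4 - s * h3 + 2 * r * h2 + (2 * r * s - t) * h1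
  · linear_combination -h6 + r * h4 - r ^ 2 * h2 + (r * s - t) * h3 + r * (r * s - t) * -h1

theorem ch_trans {F : Type} [Field F] {V E G : WeierstrassCurve F} {u r s t u' r' s' t' : F}
    (h : Ch V E u r s t) (k : Ch E G u' r' s' t') : Ch V G (u * u') (u' ^ 2 * r + r') (u' * s + s')
      (u' ^ 3 * t + u' ^ 2 * s' * r + t') := by
  obtain ⟨n, h1, h2, h3, h4, h6⟩ := h
  obtain ⟨m, k1, k2, k3, k4, k6⟩ := k
  refine ⟨mul_ne_zero n m, ?_, ?_, ?_, ?_, ?_⟩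
  · linear_combination u' * h1 + k1
  · linear_combination u' ^ 2 * h2 + k2 - u' * s * k1
  · linear_combination u' ^ 3 * h3 + k3 + u' ^ 2 * r * k1
  · linear_combination u' ^ 4 * h4 + k4 - u' * s * k3 + 2 * u' ^ 2 * r * k2 -
      u' ^ 3 * (t + r * s) * k1
  · linear_combination u' ^ 6 * h6 + k6 + u' ^ 2 * r * k4 + u' ^ 4 * r ^ 2 * k2 - u' ^ 3 * t * k3 -
      u' ^ 5 * r * t * k1

theorem ch_eq {F : Type} [Field F] {V E : WeierstrassCurve F} {u r s t : F} (h : Ch V E u r s t) :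
    (⟨Units.mk0 u h.ne, r, s, t⟩ : VariableChange F) • E = V := by
  have k := ch_of (⟨Units.mk0 u h.ne, r, s, t⟩ : VariableChange F) E
  have := h.ne
  ext
  · exact mul_left_cancel₀ this (k.a1.trans h.a1.symm)
  · exact mul_left_cancel₀ (pow_ne_zero 2 this) (k.a2.trans h.a2.symm)
  · exact mul_left_cancel₀ (pow_ne_zero 3 this) (k.a3.trans h.a3.symm)
  · exact mul_left_cancel₀ (pow_ne_zero 4 this) (k.a4.trans h.a4.symm)
  · exact mul_left_cancel₀ (pow_ne_zero 6 this) (k.a6.trans h.a6.symm)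

theorem loc (p : ℕ) [hp : Fact p.Prime] : Lf.Loc p ℤ_[p] :=
  ⟨hp.out, inferInstance, PadicInt.irreducible_p, by
    rw [Nat.card_congr PadicInt.residueField.toEquiv, Nat.card_zmod]⟩

theorem wp_eq (W : WeierstrassCurve ℤ) :
    Wp W p = (W.map (Int.castRingHom ℤ_[p])).map (algebraMap ℤ_[p] ℚ_[p]) := by
  rw [Wp, WeierstrassCurve.baseChange, WeierstrassCurve.map_map, WeierstrassCurve.map_map,
    RingHom.ext_int ((algebraMap ℚ _).comp _) (RingHom.comp _ _)]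

/-- integers which are `1` modulo `8` are squares -/
theorem sq2 {d : ℤ} (h : d % 8 = 1) : ∃ θ : ℚ_[2], θ ^ 2 = d ∧ ‖θ‖ = 1 := by
  obtain ⟨k, rfl⟩ : ∃ k, d = 8 * k + 1 := ⟨d / 8, by omega⟩
  obtain ⟨z, hz, -⟩ := hensels_lemma (p := 2) (F := (X ^ 2 + X - C ((2 * k : ℤ) : ℤ_[2]) : ℤ_[2][X]))
    (a := 0) (by simpa [-Int.cast_mul] using PadicInt.norm_int_lt_one_iff_dvd (p := 2) (2 * k))
  have e : ((2 * z + 1 : ℤ_[2]) : ℚ_[2]) ^ 2 = (8 * k + 1 : ℤ) := by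
    rw [← PadicInt.coe_intCast, ← PadicInt.coe_pow]
    simp only [map_sub, map_add, map_pow, aeval_X, aeval_C, Algebra.algebraMap_self_apply] at hz
    refine congrArg (fun x : ℤ_[2] => (x : ℚ_[2])) ?_
    push_cast at hz ⊢
    linear_combination 4 * hz
  refine ⟨_, e, ?_⟩
  rw [← sq_eq_sq₀ (norm_nonneg _) zero_le_one, ← norm_pow, e, one_pow, Padic.norm_intCast_eq_one_iff]
  exact ⟨1, -4 * k, by push_cast; ring⟩

end V2

open V2

variable {u r s t : ℚ_[p]}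

/-- **the local factor under a change of the model** -/
theorem vol_ch (hΔ : W.Δ ≠ 0) (hΔ' : W'.Δ ≠ 0) (H : Ch (Wp W p) (Wp W' p) u r s t) :
    (tm (Wq W') p * np W' p : ℝ) * ‖u‖ = tm (Wq W) p * np W p := by
  have p0 : (0 : ℝ) < p := by exact_mod_cast hp.out.pos
  have H' : Ch ((Wp W p).map (RingHom.id _)) (Wp W' p) u r s t := H
  obtain ⟨lg, h⟩ := ex_lg (cfp W p) hp.out.ne_zero Padic.norm_p_lt_one
  obtain ⟨lg', h'⟩ := ex_lg (cfp W' p) hp.out.ne_zero Padic.norm_p_lt_one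
  have V := h.vl hΔ
  have V' := h'.vl hΔ'
  let f := AddEquiv.ofBijective (vm _ H') ⟨vm_inj _, vm_surj _ Function.surjective_id⟩
  have c : ∀ y, u * lg' (f y) = lg y := fun y => by
    have m := AddSubgroup.nsmul_index_mem (Fo (cfp W p) _ (p_pos p)) y
    have := Lg.comp (cfp W p) (cfp W' p) (fun _ => rfl) H' h h' Padic.norm_p_lt_one m.1 m.2
    rw [map_nsmul, map_nsmul, map_nsmul, nsmul_eq_mul, nsmul_eq_mul, mul_left_comm] at this
    exact mul_left_cancel₀ (Nat.cast_ne_zero.2 V.fin) this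
  obtain ⟨j, y, a, b, e⟩ := V.vol
  obtain ⟨j', y', a', b', e'⟩ := V'.vol
  have k : Nat.card lg'.ker = Nat.card lg.ker := (Nat.card_congr (f.toEquiv.subtypeEquiv fun y => by
    change lg y = 0 ↔ lg' (f y) = 0
    rw [← c, mul_eq_zero_iff_left H.ne])).symm
  have n : ‖u‖ * ‖lg' y'‖ = ‖lg y‖ := le_antisymm
    (by rw [← norm_mul, ← f.apply_symm_apply y', c]; exact (b _).2 ⟨_, rfl⟩)
    (by rw [← c, norm_mul]; exact mul_le_mul_of_nonneg_left ((b' _).2 ⟨_, rfl⟩) (norm_nonneg _))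
  rw [idx p hΔ] at e
  rw [idx p hΔ', k] at e'
  rw [a, a', zpow_sub₀ p0.ne', zpow_sub₀ p0.ne', ← mul_div_assoc, div_left_inj' (by positivity),
    zpow_natCast, zpow_natCast] at n
  have e1 := congrArg (Nat.cast : ℕ → ℝ) e
  have e2 := congrArg (Nat.cast : ℕ → ℝ) e'
  push_cast at e1 e2
  rw [tm_eq, tm_eq]
  refine mul_right_cancel₀ p0.ne' ?_
  linear_combination ‖u‖ * e2 - e1 + (Nat.card lg.ker : ℝ) * n

theorem vol_un (hΔ : W.Δ ≠ 0) (hΔ' : W'.Δ ≠ 0) (H : Ch (Wp W p) (Wp W' p) u r s t) (n : ‖u‖ = 1) :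
    tm (Wq W') p * np W' p = tm (Wq W) p * np W p := by
  have := vol_ch hΔ hΔ' H
  rw [n, mul_one] at this
  exact_mod_cast this

/-- a global minimal equation is minimal at `p` -/
theorem min_le (hΔ' : W'.Δ ≠ 0) (hm : GlobalMinimal (Wq W')) (H : Ch (Wp W p) (Wp W' p) u r s t) :
    1 ≤ ‖u‖ := by
  obtain ⟨b, hb⟩ := Np.inv_int (V2.loc p) W' hΔ' hm ⟨Units.mk0 u H.ne, r, s, t⟩
    (W.map (Int.castRingHom ℤ_[p])) (by rw [← wp_eq, ← wp_eq]; exact ch_eq H)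
  have : ‖u⁻¹‖ ≤ 1 := (show (b : ℚ_[p]) = u⁻¹ from hb) ▸ b.2
  rwa [norm_inv, inv_le_one₀ (norm_pos_iff.2 H.ne)] at this

theorem min_un (hΔ : W.Δ ≠ 0) (hΔ' : W'.Δ ≠ 0) (hm : GlobalMinimal (Wq W))
    (hm' : GlobalMinimal (Wq W')) (H : Ch (Wp W p) (Wp W' p) u r s t) : ‖u‖ = 1 := by
  have := min_le hΔ hm (ch_inv H)
  rw [norm_inv, one_le_inv₀ (norm_pos_iff.2 H.ne)] at this
  exact le_antisymm this (min_le hΔ' hm' H)

section

variable {a b d u r s t u' r' s' t' : ℚ} {θ : ℚ_[p]}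

/-- a twist by a local square -/
theorem ch_tw (h : Md (Wq W) a b u r s t) (h' : Md (Wq W') (a * d ^ 2) (b * d ^ 3) u' r' s' t')
    (d0 : d ≠ 0) (e : θ ^ 2 = d) : ∃ r s t, Ch (Wp W p) (Wp W' p) (u * θ * (u' : ℚ_[p])⁻¹) r s t := by
  have k : Ch ((⟨0, 0, 0, a, b⟩ : WeierstrassCurve ℚ).map (algebraMap ℚ ℚ_[p]))
      ((⟨0, 0, 0, a * d ^ 2, b * d ^ 3⟩ : WeierstrassCurve ℚ).map (algebraMap ℚ ℚ_[p])) θ 0 0 0 := by
    refine ⟨fun q => d0 (by rw [q] at e; exact_mod_cast (e.symm.trans (by simp) : (d : ℚ_[p]) = 0)),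
      by simp, by simp, by simp, ?_, ?_⟩ <;> simp [← e] <;> ring
  exact ⟨_, _, _, ch_trans (ch_trans (h.map (algebraMap ℚ ℚ_[p])) k) (ch_inv (h'.map _))⟩

theorem vol_tw (hΔ : W.Δ ≠ 0) (hΔ' : W'.Δ ≠ 0) (h : Md (Wq W) a b u r s t)
    (h' : Md (Wq W') (a * d ^ 2) (b * d ^ 3) u' r' s' t') (d0 : d ≠ 0) (e : θ ^ 2 = d) :
    (tm (Wq W') p * np W' p : ℝ) * (‖(u : ℚ_[p])‖ * ‖θ‖) =
      tm (Wq W) p * np W p * ‖(u' : ℚ_[p])‖ := by
  obtain ⟨_, _, _, H⟩ := ch_tw h h' d0 e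
  have : ‖(u' : ℚ_[p])‖ ≠ 0 := norm_ne_zero_iff.2 (Rat.cast_ne_zero.2 h'.ne)
  rw [← vol_ch hΔ hΔ' H, norm_mul, norm_mul, norm_inv]
  field_simp

/-- two equations of the same curve -/
theorem vol_md (p : ℕ) [Fact p.Prime] (hΔ : W.Δ ≠ 0) (hΔ' : W'.Δ ≠ 0) (h : Md (Wq W) a b u r s t)
    (h' : Md (Wq W') a b u' r' s' t') :
    (tm (Wq W') p * np W' p : ℝ) * ‖(u : ℚ_[p])‖ = tm (Wq W) p * np W p * ‖(u' : ℚ_[p])‖ := by
  simpa using vol_tw (p := p) (θ := 1) (d := 1) hΔ hΔ' h (by simpa using h') one_ne_zero (by simp)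

end

variable {A B d : ℤ} {u r s t u' r' s' t' : ℚ}

/-- **the twist by `d ≡ 1` modulo `8`** -/
theorem v2 (hd : d % 8 = 1) (hΔ : W.Δ ≠ 0) (hΔ' : W'.Δ ≠ 0) (h : Md (Wq W) A B u r s t)
    (h' : Md (Wq W') (A * d ^ 2 : ℤ) (B * d ^ 3 : ℤ) u' r' s' t') :
    (tm (Wq W') 2 * np W' 2 : ℝ) * ‖(u : ℚ_[2])‖ = tm (Wq W) 2 * np W 2 * ‖(u' : ℚ_[2])‖ := by
  obtain ⟨θ, e, n⟩ := sq2 hd
  simpa [n] using vol_tw (d := d) (θ := θ) hΔ hΔ' h (by simpa using h')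
    (by rintro q; obtain rfl : d = 0 := by exact_mod_cast q
        omega) (by simpa using e)

theorem v2_un (hd : d % 8 = 1) (hΔ : W.Δ ≠ 0) (hΔ' : W'.Δ ≠ 0) (h : Md (Wq W) A B u r s t)
    (h' : Md (Wq W') (A * d ^ 2 : ℤ) (B * d ^ 3 : ℤ) u' r' s' t')
    (n : ‖(u' : ℚ_[2])‖ = ‖(u : ℚ_[2])‖) : tm (Wq W') 2 * np W' 2 = tm (Wq W) 2 * np W 2 := by
  have := v2 hd hΔ hΔ' h h'
  rw [n, mul_left_inj' (norm_ne_zero_iff.2 (Rat.cast_ne_zero.2 h.ne))] at this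
  exact_mod_cast this

theorem v2_min (hd : d % 8 = 1) (hΔ : W.Δ ≠ 0) (hΔ' : W'.Δ ≠ 0) (hm : GlobalMinimal (Wq W))
    (hm' : GlobalMinimal (Wq W')) (h : Md (Wq W) A B u r s t)
    (h' : Md (Wq W') (A * d ^ 2 : ℤ) (B * d ^ 3 : ℤ) u' r' s' t') :
    ‖(u' : ℚ_[2])‖ = ‖(u : ℚ_[2])‖ ∧ tm (Wq W') 2 * np W' 2 = tm (Wq W) 2 * np W 2 := by
  obtain ⟨θ, e, n⟩ := sq2 hd
  obtain ⟨_, _, _, H⟩ := ch_tw (d := d) (θ := θ) h (by simpa using h')
    (by rintro q; obtain rfl : d = 0 := by exact_mod_cast q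
        omega) (by simpa using e)
  have k := min_un hΔ hΔ' hm hm' H
  rw [norm_mul, norm_mul, n, mul_one, norm_inv, mul_inv_eq_one₀
    (norm_ne_zero_iff.2 (Rat.cast_ne_zero.2 h'.ne))] at k
  exact ⟨k.symm, v2_un hd hΔ hΔ' h h' k.symm⟩

/-- the short equation over `ℤ` -/
theorem md_sh (A B : ℤ) : Md (Wq ⟨0, 0, 0, A, B⟩) A B 1 0 0 0 := by
  refine ⟨one_ne_zero, ?_, ?_, ?_, ?_, ?_⟩ <;> simp

theorem sh_ne (hD : 4 * A ^ 3 + 27 * B ^ 2 ≠ 0) : (⟨0, 0, 0, A, B⟩ : WeierstrassCurve ℤ).Δ ≠ 0 :=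
  fun e => hD (by
    simp only [Δ, b₂, b₄, b₆, b₈] at e
    have : -16 * (4 * A ^ 3 + 27 * B ^ 2) = 0 := by linear_combination e
    omega)

/-- **the short equations** -/
theorem v2_sh (hd : d % 8 = 1) (hD : 4 * A ^ 3 + 27 * B ^ 2 ≠ 0) :
    tm (Wq ⟨0, 0, 0, A * d ^ 2, B * d ^ 3⟩) 2 * np ⟨0, 0, 0, A * d ^ 2, B * d ^ 3⟩ 2 =
      tm (Wq ⟨0, 0, 0, A, B⟩) 2 * np ⟨0, 0, 0, A, B⟩ 2 :=
  v2_un hd (sh_ne hD) (sh_ne (by
    rw [show 4 * (A * d ^ 2) ^ 3 + 27 * (B * d ^ 3) ^ 2 = d ^ 6 * (4 * A ^ 3 + 27 * B ^ 2) by ring]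
    exact mul_ne_zero (pow_ne_zero _ (by omega)) hD)) (md_sh A B) (md_sh _ _) rfl

/-- from an equation to the short equation -/
theorem vol_sh (p : ℕ) [Fact p.Prime] (hΔ : W.Δ ≠ 0) (h : Md (Wq W) A B u r s t) :
    (tm (Wq ⟨0, 0, 0, A, B⟩) p * np ⟨0, 0, 0, A, B⟩ p : ℝ) * ‖(u : ℚ_[p])‖ = tm (Wq W) p * np W p := by
  have : (Wq W).IsElliptic := ⟨by simpa using hΔ⟩
  simpa using vol_md p hΔ (sh_ne h.hD) h (md_sh A B)

theorem V2.val {x y : ℕ} (x0 : x ≠ 0) (y0 : y ≠ 0) (p q : ℕ) [hp : Fact p.Prime] [hq : Fact q.Prime]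
    (u0 : u ≠ 0) (u1 : u' ≠ 0) (e : (y : ℝ) * ‖(u : ℚ_[p])‖ = x * ‖(u' : ℚ_[p])‖) :
    (padicValNat q y : ℤ) + (if p = q then padicValRat p u' else 0) =
      padicValNat q x + if p = q then padicValRat p u else 0 := by
  have p0 : (p : ℚ) ≠ 0 := Nat.cast_ne_zero.2 hp.out.ne_zero
  rw [Padic.eq_padicNorm, Padic.eq_padicNorm, padicNorm.eq_zpow_of_nonzero u0,
    padicNorm.eq_zpow_of_nonzero u1] at e
  have k := congrArg (padicValRat q) (show (y : ℚ) * _ = x * _ by exact_mod_cast e)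
  rw [padicValRat.mul (Nat.cast_ne_zero.2 y0) (zpow_ne_zero _ p0),
    padicValRat.mul (Nat.cast_ne_zero.2 x0) (zpow_ne_zero _ p0), padicValRat.zpow,
    padicValRat.zpow, padicValRat.of_nat, padicValRat.of_nat, padicValRat.of_nat] at k
  split_ifs with c
  · subst c
    rw [padicValNat_self] at k
    omega
  · rw [padicValNat_primes (Ne.symm c)] at k
    simpa using k

theorem tn_ne (p : ℕ) [hp : Fact p.Prime] (hΔ : W.Δ ≠ 0) : tm (Wq W) p * np W p ≠ 0 :=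
  mul_ne_zero (tm_eq _ p ▸ tam_ne p hΔ) (np_pos W hp.out).ne'

/-- two equations of the same curve: the valuations -/
theorem val_md {a b : ℚ} (p q : ℕ) [Fact p.Prime] [Fact q.Prime] (hΔ : W.Δ ≠ 0) (hΔ' : W'.Δ ≠ 0)
    (h : Md (Wq W) a b u r s t) (h' : Md (Wq W') a b u' r' s' t') :
    (padicValNat q (tm (Wq W') p * np W' p) : ℤ) + (if p = q then padicValRat p u' else 0) =
      padicValNat q (tm (Wq W) p * np W p) + if p = q then padicValRat p u else 0 :=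
  V2.val (tn_ne p hΔ) (tn_ne p hΔ') p q h.ne h'.ne (by exact_mod_cast vol_md p hΔ hΔ' h h')

theorem val_sh (p q : ℕ) [Fact p.Prime] [Fact q.Prime] (hΔ : W.Δ ≠ 0) (h : Md (Wq W) A B u r s t) :
    (padicValNat q (tm (Wq ⟨0, 0, 0, A, B⟩) p * np ⟨0, 0, 0, A, B⟩ p) : ℤ) =
      padicValNat q (tm (Wq W) p * np W p) + if p = q then padicValRat p u else 0 := by
  have : (Wq W).IsElliptic := ⟨by simpa using hΔ⟩
  simpa only [padicValRat.one, ite_self, add_zero] using val_md p q hΔ (sh_ne h.hD) h (md_sh A B)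

/-- the product over a set of primes which contains `2` -/
theorem val_prod {S : Finset ℕ} (hS : ∀ p ∈ S, p.Prime) (h2 : 2 ∈ S) (hΔ : W.Δ ≠ 0)
    (h : Md (Wq W) A B u r s t) :
    (padicValNat 2 (∏ p ∈ S, tm (Wq ⟨0, 0, 0, A, B⟩) p * np ⟨0, 0, 0, A, B⟩ p) : ℤ) =
      padicValNat 2 (∏ p ∈ S, tm (Wq W) p * np W p) + padicValRat 2 u := by
  have : (Wq W).IsElliptic := ⟨by simpa using hΔ⟩
  have a : ∀ {W : WeierstrassCurve ℤ}, W.Δ ≠ 0 → padicValNat 2 (∏ p ∈ S, tm (Wq W) p * np W p) =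
      ∑ p ∈ S, padicValNat 2 (tm (Wq W) p * np W p) := fun {W} k => by
    simp only [← Nat.factorization_def _ Nat.prime_two]
    rw [Nat.factorization_prod fun p m => @tn_ne W p ⟨hS p m⟩ k, Finsupp.finset_sum_apply]
  rw [a hΔ, a (sh_ne h.hD), Nat.cast_sum, Nat.cast_sum, Finset.sum_congr rfl fun p m =>
    @val_sh W A B u r s t p 2 ⟨hS p m⟩ _ hΔ h, Finset.sum_add_distrib, Finset.sum_ite_eq', if_pos h2]

end Vale.Agent.P014T.Lc
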