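import Vale.Agent.P014T.Lc.Fx
import Vale.Agent.P014T.Kx.St

/-! # P014T, local points: the index of the rational points, the formal group -/

set_option linter.all false

open scoped Classical
open WeierstrassCurve WeierstrassCurve.Affine P179W NumberField

noncomputable section

namespace Vale.Agent.P014T.Lc

open Vale.Agent.P014T.Sm
open Vale.Agent.P022 (Qb GQ)
open Vale.Agent.P022D.W (dec)
open Vale.Agent.P022E.GW (Ov)
open Vale.Agent.P014T.Wm (Fx)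
open Vale.Agent.P014T.Ba (Tp)
open Vale.Agent.P014T.Ah (Ind am)
open Vale.Agent.P014T.Kx (tl jx)
open Vale.Agent.P004S.Ga (K)
open P004M.TE (Cv Pt pa pa_some)
open P004K (Ip K1)
open P004F.Qx (Fk)

section

variable {Y : Type} [AddCommGroup Y] {R M : AddSubgroup Y} (hM : ∀ y, y ∈ M ↔ ∃ k : ℕ, 2 ^ k • y ∈ R)
include hM

theorem tors_le {y : Y} (m : y ∈ M) (h : IsOfFinAddOrder y) : y ∈ R ⊔ Tp Y := by
  obtain ⟨j, m⟩ := (hM y).1 m
  obtain ⟨n, n0, e⟩ := h.exists_nsmul_eq_zero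
  obtain ⟨k, b, c, rfl⟩ := Nat.exists_eq_pow_mul_and_not_dvd n0.ne' 2 (by norm_num)
  obtain ⟨α, β, d⟩ := Nat.isCoprime_iff_coprime.2
    (((Nat.prime_two.coprime_iff_not_dvd).2 c).pow_left j)
  rw [← one_zsmul y, ← d, add_smul, mul_smul, mul_smul, natCast_zsmul, natCast_zsmul]
  exact AddSubgroup.add_mem_sup (zsmul_mem m _) (zsmul_mem (show _ ∈ Tp Y from
    ⟨k, by rw [← mul_smul, e]⟩) _)

theorem sup_le_M : R ⊔ Tp Y ≤ M :=
  sup_le (fun y h => (hM y).2 ⟨0, by simpa⟩) fun y ⟨k, e⟩ => (hM y).2 ⟨k, e ▸ zero_mem _⟩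

omit hM in
theorem rel_tp : R.relIndex (R ⊔ Tp Y) * Nat.card ↥(R ⊓ Tp Y) = Nat.card (Tp Y) := by
  rw [AddSubgroup.relIndex_sup_left, ← AddSubgroup.inf_relIndex_right,
    ← AddSubgroup.relIndex_bot_left, ← AddSubgroup.relIndex_bot_left, mul_comm,
    AddSubgroup.relIndex_mul_relIndex _ _ _ bot_le inf_le_right]

theorem jx0 (h : ∀ r ∈ R, IsOfFinAddOrder r) :
    R.relIndex M * Nat.card ↥(R ⊓ Tp Y) = Nat.card (Tp Y) := by
  rw [← rel_tp (R := R), le_antisymm (sup_le_M hM) fun y m => tors_le hM m ?_]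
  obtain ⟨k, e⟩ := (hM y).1 m
  exact (isOfFinAddOrder_nsmul.1 (h _ e)).resolve_right (by positivity)

theorem jx1 {lg : Y →+ K} {y₀ r₀ : Y} (ker : ∀ y, lg y = 0 ↔ IsOfFinAddOrder y)
    (bd : ∀ y, ‖lg y‖ ≤ ‖lg y₀‖) (sat : ∀ y, ‖lg y‖ < ‖lg y₀‖ → ∃ t ∈ Tp Y, ∃ y', y = t + 2 • y')
    (r0 : r₀ ∈ R) (n0 : lg r₀ ≠ 0) (gen : ∀ r ∈ R, ∃ n : ℤ, IsOfFinAddOrder (r - n • r₀)) :
    (R.relIndex M * Nat.card ↥(R ⊓ Tp Y) : ℝ) * ‖lg r₀‖ = Nat.card (Tp Y) * ‖lg y₀‖ := by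
  have y0 : 0 < ‖lg y₀‖ := (norm_pos_iff.2 n0).trans_le (bd _)
  have t0 : ∀ t ∈ Tp Y, lg t = 0 := fun t ⟨k, e⟩ =>
    (ker t).2 (isOfFinAddOrder_iff_nsmul_eq_zero.2 ⟨_, by positivity, e⟩)
  obtain ⟨m, e⟩ : ∃ m : ℕ, ‖lg r₀‖ * 2 ^ m = ‖lg y₀‖ := by
    let a : ℤ_[2] := ⟨lg r₀ / lg y₀, by rw [norm_div]; exact div_le_one_of_le₀ (bd _) y0.le⟩
    have := PadicInt.norm_eq_zpow_neg_valuation (x := a) fun e =>
      div_ne_zero n0 (norm_pos_iff.1 y0) (congrArg Subtype.val e)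
    rw [show ‖a‖ = _ from norm_div (lg r₀) _, div_eq_iff y0.ne'] at this
    exact ⟨a.valuation, by rw [this, zpow_neg]; push_cast; field_simp; simp⟩
  have : ∀ (m : ℕ) r, ‖lg r‖ * 2 ^ m = ‖lg y₀‖ → ∃ y, 2 ^ m • y - r ∈ Tp Y ∧ ‖lg y‖ = ‖lg y₀‖ := by
    intro m
    induction m with
    | zero => exact fun r e => ⟨r, by simp, by simpa using e⟩
    | succ m ih =>
      intro r e
      obtain ⟨t, a, r, rfl⟩ := sat r (by
        rw [← e] at y0 ⊢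
        exact lt_mul_of_one_lt_right (pos_of_mul_pos_left y0 (by positivity))
          (one_lt_pow₀ one_lt_two m.succ_ne_zero))
      obtain ⟨y, b, c⟩ := ih r (by
        rw [← e, map_add, t0 t a, zero_add, map_nsmul, nsmul_eq_mul, norm_mul, Padic.norm_p]
        push_cast
        ring)
      refine ⟨y, ?_, c⟩
      convert sub_mem (nsmul_mem b 2) a using 1
      rw [pow_succ', mul_smul, smul_sub]
      abel
  obtain ⟨y, a, b⟩ := this m r₀ e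
  have c : lg r₀ = 2 ^ m * lg y := by
    have := t0 _ a
    rw [map_sub, map_nsmul, nsmul_eq_mul, sub_eq_zero] at this
    exact_mod_cast this.symm
  have y1 : lg y ≠ 0 := norm_pos_iff.1 (b ▸ y0)
  have g : ∀ r ∈ R, ∃ n : ℤ, lg r = (2 ^ m * n : ℤ) * lg y := fun r k => (gen r k).imp fun n k => by
    rw [← ker, map_sub, map_zsmul, zsmul_eq_mul, sub_eq_zero, c] at k
    push_cast
    linear_combination k
  have d : 2 ^ m • y ∈ R ⊔ Tp Y := by simpa using AddSubgroup.add_mem_sup r0 a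
  have ym : y ∈ M := by
    obtain ⟨k, q⟩ := (hM _).1 (sup_le_M hM d)
    exact (hM y).2 ⟨k + m, by rwa [pow_add, mul_smul]⟩
  have e1 : M = (zmultiplesHom Y y).range ⊔ (R ⊔ Tp Y) := by
    refine le_antisymm (fun x k => ?_) (sup_le (fun _ ⟨n, k⟩ => k ▸ zsmul_mem ym n) (sup_le_M hM))
    obtain ⟨j, q⟩ := (hM x).1 k
    obtain ⟨n, w⟩ := g _ q
    rw [map_nsmul, nsmul_eq_mul] at w
    obtain ⟨i, v⟩ := (Padic.norm_int_le_pow_iff_dvd (p := 2) (2 ^ m * n) j).1 (by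
      rw [← mul_le_mul_iff_left₀ (norm_pos_iff.2 y1), ← norm_mul, ← w, norm_mul, b, Nat.cast_pow,
        norm_pow, Padic.norm_p, zpow_neg, zpow_natCast, inv_pow]
      exact mul_le_mul_of_nonneg_left (bd _) (by positivity))
    rw [← add_sub_cancel (i • y) x]
    refine AddSubgroup.add_mem_sup ⟨i, rfl⟩ (tors_le hM (sub_mem k (zsmul_mem ym i)) ((ker _).1 ?_))
    rw [v] at w
    push_cast at w
    rw [map_sub, map_zsmul, zsmul_eq_mul, sub_eq_zero]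
    exact mul_left_cancel₀ (pow_ne_zero j two_ne_zero) (w.trans (mul_assoc ..))
  have e2 : (R ⊔ Tp Y).comap (zmultiplesHom Y y) = AddSubgroup.zmultiples (2 ^ m : ℤ) := by
    refine le_antisymm (fun n k => ?_) ((AddSubgroup.zmultiples_le_of_mem) (by
      simpa [← natCast_zsmul] using d))
    obtain ⟨r, k1, t, k2, k⟩ := AddSubgroup.mem_sup.1 k
    obtain ⟨i, w⟩ := g r k1
    have := congrArg lg k
    rw [map_add, t0 t k2, add_zero, w, zmultiplesHom_apply, map_zsmul, zsmul_eq_mul] at this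
    exact Int.mem_zmultiples_iff.2 ⟨i, (Int.cast_injective (mul_right_cancel₀ y1 this)).symm⟩
  rw [← rel_tp (R := R), ← e, ← AddSubgroup.relIndex_mul_relIndex _ _ _ le_sup_left (sup_le_M hM),
    e1, AddSubgroup.relIndex_sup_right, ← AddSubgroup.index_comap, e2, Int.index_zmultiples]
  simp only [Int.natAbs_pow, Int.reduceAbs, Nat.cast_mul, Nat.cast_pow, Nat.cast_ofNat]
  ring

end

variable {A B : ℤ} {u r s t : ℚ} {D : Subgroup GQ}

theorem tl_eq : tl A B D = Nat.card (Tp (Fx A B D)) :=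
  Nat.card_congr ⟨fun y => ⟨⟨y.1, y.2.2⟩, y.2.1.imp fun _ => Subtype.ext⟩,
    fun y => ⟨y.1.1, y.2.imp fun _ => congrArg Subtype.val, y.1.2⟩, fun _ => rfl, fun _ => rfl⟩

theorem tl_top : tl A B ⊤ = Nat.card ↥((Fx A B ⊤).addSubgroupOf (Fx A B D) ⊓ Tp (Fx A B D)) :=
  Nat.card_congr ⟨fun y => ⟨⟨y.1, fun g _ => y.2.2 g trivial⟩, y.2.2, y.2.1.imp fun _ => Subtype.ext⟩,
    fun y => ⟨y.1.1, y.2.2.imp fun _ => congrArg Subtype.val, y.2.1⟩, fun _ => rfl, fun _ => rfl⟩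

theorem jx_sub : jx A B D = ((Fx A B ⊤).addSubgroupOf (Fx A B D)).relIndex
    ((Kx.Dv A B).addSubgroupOf (Fx A B D)) := by
  rw [jx, ← AddSubgroup.relIndex_addSubgroupOf inf_le_right, AddSubgroup.inf_addSubgroupOf_right]

/-- **rank zero** -/
theorem jx_zero (h : ∀ r ∈ Fx A B ⊤, IsOfFinAddOrder r) : jx A B D * tl A B ⊤ = tl A B D := by
  rw [jx_sub, tl_top (D := D), tl_eq]
  exact jx0 (fun _ => Iff.rfl) fun r k => (Fx A B D).subtype_injective.isOfFinAddOrder_iff.1 (h _ k)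

variable {P : Ideal (𝓞 Qb)} {ι : Qb →+* ℂ_[2]} (hι : Ind ι P) {lg : Fx A B (dec P) →+ K}
include hι

theorem ip_iff (x : Qb) : Ip P x ↔ ‖ι x‖ ≤ 1 := by
  have o : ∀ {a : 𝓞 Qb}, a ∉ P → ‖ι a‖ = 1 := fun k =>
    le_antisymm (Ah.nrm_int ι _) (not_lt.1 (mt (hι _).2 k))
  refine ⟨fun ⟨a, b, c, e⟩ => ?_, fun k => ?_⟩
  · have := Ah.nrm_int ι b
    rwa [← e, map_mul, norm_mul, o c, one_mul] at this
  obtain ⟨a, b, c, e | e⟩ := P004M.TE.dich hι.ov.2.1 two_ne_zero hι.ov.2.2 x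
  · exact ⟨a, b, c, e⟩
  · refine ⟨b, a, fun j => ?_, by rw [mul_comm, e]⟩
    have := mul_lt_one_of_nonneg_of_lt_one_right k (norm_nonneg _) ((hι b).1 j)
    rw [← norm_mul, ← map_mul, e, o c] at this
    exact this.false

theorem k1_iff (y : Pt A B) : K1 P y ↔ KerV (nv ℂ_[2]) (pa ι.toRatAlgHom y) := by
  rcases y with _ | ⟨x, y, h⟩
  · exact ⟨fun _ => (map_zero (pa ι.toRatAlgHom)).symm ▸ trivial,
      fun _ _ _ _ e => absurd e.symm (Point.some_ne_zero _)⟩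
  rw [pa_some]
  refine ⟨fun k e => k _ _ _ rfl ((ip_iff hι _).2 e), fun k a b h' e i => k ?_⟩
  obtain ⟨rfl, -⟩ := e
  exact (ip_iff hι _).1 i

omit hι in
theorem zf_pa (y : Pt A B) : zf (pa ι.toRatAlgHom y) = ι (P004F.Qx.zf y) := by
  rcases y with _ | ⟨x, y, h⟩
  · exact (congrArg zf (map_zero _)).trans (map_zero ι).symm
  · rw [pa_some]
    exact ((map_div₀ ι _ _).trans (by rw [map_neg]; rfl)).symm

theorem fk_nrm {κ : ℕ} (h0 : κ ≠ 0) (y : Pt A B) :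
    Fk P κ y ↔ K1 P y ∧ ‖ι (P004F.Qx.zf y)‖ ≤ ‖(κ : K)‖ := by
  rw [Fk, ip_iff hι, map_div₀, norm_div, map_natCast, ← map_natCast am, Ah.nrm_am,
    div_le_one (norm_pos_iff.2 (Nat.cast_ne_zero.2 h0))]

/-- the logarithm on the formal group -/
theorem Lk.fk (k : Lk ι lg) {κ : ℕ} (h0 : κ ≠ 0) (h4 : 4 ∣ κ) {y : Fx A B (dec P)} (m : Fk P κ y.1) :
    ‖lg y‖ = ‖ι (P004F.Qx.zf y.1)‖ := by
  obtain ⟨L, hL⟩ := ex_lgs A B
  obtain ⟨a, b⟩ := (fk_nrm hι h0 _).1 m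
  rw [← Ah.nrm_am, k L hL, ← zf_pa]
  refine hL.norm (cfs _ A B) ((k1_iff hι _).1 a) (zf_pa (ι := ι) y.1 ▸ b.trans_lt ?_)
  obtain ⟨c, rfl⟩ := h4
  rw [← map_natCast am, Ah.nrm_am, Nat.cast_mul, norm_mul, show (4 : ℕ) = 2 ^ 2 from rfl,
    Nat.cast_pow, norm_pow, Padic.norm_p]
  exact (mul_le_of_le_one_right (by positivity) (IsUltrametricDist.norm_natCast_le_one K c)).trans_lt
    (by norm_num)

theorem Lk.fk_iff (k : Lk ι lg) {κ₀ κ : ℕ} (h0 : κ₀ ≠ 0) (h4 : 4 ∣ κ₀) {y : Fx A B (dec P)}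
    (m : Fk P κ₀ y.1) (h1 : κ ≠ 0) : Fk P κ y.1 ↔ ‖lg y‖ ≤ ‖(κ : K)‖ := by
  rw [fk_nrm hι h1, k.fk hι h0 h4 m, and_iff_right m.1]

variable {W : WeierstrassCurve ℤ} (hΔ : W.Δ ≠ 0) (h : Md (Wq W) A B u r s t)
include hΔ h

/-- **rank one** -/
theorem jx_one (k : Lk ι lg) {r₀ : Fx A B (dec P)} (r0 : r₀.1 ∈ Fx A B ⊤)
    (n0 : ¬ IsOfFinAddOrder r₀.1) (gen : ∀ r ∈ Fx A B ⊤, ∃ n : ℤ, IsOfFinAddOrder (r - n • r₀.1)) :
    (jx A B (dec P) * tl A B ⊤ : ℝ) * (‖(u : K) * lg r₀‖ * 2) =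
      2 ^ padicValNat 2 (tm (Wq W) 2 * np W 2) := by
  obtain ⟨l, y, a, b, -, c, d, e⟩ := two hΔ h hι
  obtain rfl := k.uniq a
  have i := fun x => (Fx A B (dec P)).subtype_injective.isOfFinAddOrder_iff (x := x)
  have := jx1 (R := (Fx A B ⊤).addSubgroupOf _) (M := (Kx.Dv A B).addSubgroupOf _)
    (fun _ => Iff.rfl) b c d r0 (fun q => n0 ((i _).2 ((b _).1 q)))
    fun r q => (gen _ q).imp fun n w => (i _).1 w
  rw [← e, jx_sub, tl_top (D := dec P), norm_mul, norm_mul]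
  linear_combination ‖(u : K)‖ * 2 * this

omit hι in
theorem tl_odd {p : ℕ} (o : Ov p P) (h2 : p ≠ 2) :
    tl A B (dec P) = 2 ^ padicValNat 2 (tm (Wq W) p * np W p) := tl_eq.trans (odd hΔ h o h2).1

end Vale.Agent.P014T.Lc
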