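import Vale.Agent.P179W.PtRed

/-! # P014T, local points: the points with nonsingular reduction -/

set_option linter.all false

open scoped Classical
open WeierstrassCurve WeierstrassCurve.Affine P179W

noncomputable section

namespace Vale.Agent.P014T.Lc

variable {K : Type} [Field K] {Γ : Type} [LinearOrderedCommGroupWithZero Γ] {v : Valuation K Γ}

/-- nonsingular reduction -/
def Ns (v : Valuation K Γ) {E : WeierstrassCurve K} : E.toAffine.Point → Prop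
  | .zero => True
  | .some x y _ => ¬ v x ≤ 1 ∨ ¬ v (phi E x y) < 1 ∨ ¬ v (psi E x y) < 1

theorem ns_ker {E : WeierstrassCurve K} {P : E.toAffine.Point} (h : KerV v P) : Ns v P := by
  rcases P with _ | ⟨x, y, h'⟩
  · trivial
  · exact .inl h

section Red

variable {R : Type} [Field R] {E₀ : WeierstrassCurve v.integer} {ρ : v.integer →+* R} {r : K → R}

theorem red_eq {x y : v.integer} (h : (E₀.map v.integer.subtype).toAffine.Equation x y) :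
    (E₀.map ρ).toAffine.Equation (ρ x) (ρ y) :=
  ((map_equation E₀.toAffine Subtype.val_injective x y).1 h).map ρ

theorem red2 {x₁ y₁ x₂ y₂ L : v.integer}
    (hl : (y₁ : K) - y₂ = L * (x₁ - x₂))
    (hk : (L : K) * (y₁ + y₂ + E₀.a₁ * x₂ + E₀.a₃) =
      x₁ ^ 2 + x₁ * x₂ + x₂ ^ 2 + E₀.a₂ * (x₁ + x₂) + E₀.a₄ - E₀.a₁ * y₁) :
    ρ y₁ - ρ y₂ = ρ L * (ρ x₁ - ρ x₂) ∧ ρ L * (ρ y₁ + ρ y₂ + ρ E₀.a₁ * ρ x₂ + ρ E₀.a₃) =
      ρ x₁ ^ 2 + ρ x₁ * ρ x₂ + ρ x₂ ^ 2 + ρ E₀.a₂ * (ρ x₁ + ρ x₂) + ρ E₀.a₄ - ρ E₀.a₁ * ρ y₁ := by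
  have a1 : y₁ - y₂ = L * (x₁ - x₂) := Subtype.ext (by push_cast; exact hl)
  have a2 : L * (y₁ + y₂ + E₀.a₁ * x₂ + E₀.a₃) =
      x₁ ^ 2 + x₁ * x₂ + x₂ ^ 2 + E₀.a₂ * (x₁ + x₂) + E₀.a₄ - E₀.a₁ * y₁ :=
    Subtype.ext (by push_cast; exact hk)
  have b1 := congrArg ρ a1
  have b2 := congrArg ρ a2
  simp only [map_sub, map_mul, map_add, map_pow] at b1 b2
  exact ⟨b1, b2⟩

theorem add_ker {x₁ y₁ x₂ y₂ : v.integer}
    (h₁ : (E₀.map v.integer.subtype).toAffine.Nonsingular x₁ y₁)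
    (h₂ : (E₀.map v.integer.subtype).toAffine.Nonsingular x₂ y₂)
    (n₂ : (E₀.map ρ).toAffine.Nonsingular (ρ x₂) (ρ y₂)) (c1 : ρ x₁ = ρ x₂)
    (c2 : ρ y₁ = (E₀.map ρ).toAffine.negY (ρ x₂) (ρ y₂)) :
    KerV v (Point.some _ _ h₁ + .some _ _ h₂) := by
  by_cases hxy : (x₁ : K) = x₂ ∧ (y₁ : K) = (E₀.map v.integer.subtype).toAffine.negY x₂ y₂
  · rw [Point.add_of_Y_eq hxy.1 hxy.2]; trivial
  obtain ⟨hl, hk⟩ := slope_rel h₁.1 h₂.1 hxy
  rw [Point.add_some hxy]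
  intro h3
  generalize (E₀.map v.integer.subtype).toAffine.slope x₁ x₂ y₁ y₂ = l at hl hk h3
  have hlO : v l ≤ 1 := by
    refine quad_le_one (a := E₀.a₁) E₀.a₁.2
      (b := (E₀.map v.integer.subtype).toAffine.addX x₁ x₂ l + E₀.a₂ + x₁ + x₂) ?_
      (v.map_add_le (v.map_add_le (v.map_add_le h3 E₀.a₂.2) x₁.2) x₂.2)
    simp only [addX, map_a₁, map_a₂, Subring.subtype_apply]
    ring
  obtain ⟨b1, b2⟩ := red2 (ρ := ρ) (L := ⟨l, hlO⟩) hl hk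
  simp only [negY, map_a₁, map_a₃] at c2
  rw [c1, sub_self, mul_zero] at b1
  rw [c1] at b2
  rcases ((nonsing_iff _ _).1 n₂).2 with h5 | h5
  · apply h5
    simp only [phi, map_a₁, map_a₂, map_a₄]
    linear_combination -b2 + ρ ⟨l, hlO⟩ * c2 + ρ E₀.a₁ * b1
  · apply h5
    simp only [psi, map_a₁, map_a₃]
    linear_combination c2 - b1

variable (hρ : ∀ c : v.integer, ρ c = 0 ↔ v c < 1)
include hρ

theorem add_int {x₁ y₁ x₂ y₂ : v.integer}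
    (h₁ : (E₀.map v.integer.subtype).toAffine.Nonsingular x₁ y₁)
    (h₂ : (E₀.map v.integer.subtype).toAffine.Nonsingular x₂ y₂)
    (hxy' : ¬ (ρ x₁ = ρ x₂ ∧ ρ y₁ = (E₀.map ρ).toAffine.negY (ρ x₂) (ρ y₂))) :
    ∃ (x₃ y₃ : v.integer) (h₃ : (E₀.map v.integer.subtype).toAffine.Nonsingular x₃ y₃),
      Point.some _ _ h₁ + .some _ _ h₂ = .some _ _ h₃ ∧
      ρ x₃ = (E₀.map ρ).toAffine.addX (ρ x₁) (ρ x₂)
        ((E₀.map ρ).toAffine.slope (ρ x₁) (ρ x₂) (ρ y₁) (ρ y₂)) ∧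
      ρ y₃ = (E₀.map ρ).toAffine.addY (ρ x₁) (ρ x₂) (ρ y₁)
        ((E₀.map ρ).toAffine.slope (ρ x₁) (ρ x₂) (ρ y₁) (ρ y₂)) := by
  have hxy : ¬ ((x₁ : K) = x₂ ∧ (y₁ : K) = (E₀.map v.integer.subtype).toAffine.negY x₂ y₂) := by
    intro hxy
    have e1 : x₁ = x₂ := Subtype.ext hxy.1
    have e2 : y₁ = E₀.toAffine.negY x₂ y₂ :=
      Subtype.ext (hxy.2.trans (map_negY v.integer.subtype x₂ y₂))
    exact hxy' ⟨by rw [e1], by rw [e2]; exact (map_negY ρ x₂ y₂).symm⟩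
  obtain ⟨hl, hk⟩ := slope_rel h₁.1 h₂.1 hxy
  have h3 := nonsingular_add h₁ h₂ hxy
  have e3 : Point.some _ _ h₁ + .some _ _ h₂ = .some _ _ h3 := Point.add_some hxy
  generalize (E₀.map v.integer.subtype).toAffine.slope x₁ x₂ y₁ y₂ = l at hl hk h3 e3
  have hne : ρ x₁ - ρ x₂ ≠ 0 ∨ ρ y₁ + ρ y₂ + ρ E₀.a₁ * ρ x₂ + ρ E₀.a₃ ≠ 0 := by
    by_contra hc
    push Not at hc
    refine hxy' ⟨sub_eq_zero.1 hc.1, ?_⟩
    simp only [negY, map_a₁, map_a₃]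
    linear_combination hc.2
  have hlO : v l ≤ 1 := by
    rcases hne with h5 | h5
    · rw [← map_sub] at h5
      exact div_int hρ (a := y₁ - y₂) h5 (by push_cast; exact hl.symm)
    · rw [← map_mul, ← map_add, ← map_add, ← map_add] at h5
      exact div_int hρ
        (a := x₁ ^ 2 + x₁ * x₂ + x₂ ^ 2 + E₀.a₂ * (x₁ + x₂) + E₀.a₄ - E₀.a₁ * y₁) h5
        (by push_cast; exact hk)
  obtain ⟨L, rfl⟩ : ∃ L : v.integer, (L : K) = l := ⟨⟨l, hlO⟩, rfl⟩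
  obtain ⟨b1, b2⟩ := red2 (ρ := ρ) hl hk
  obtain ⟨c1, c2⟩ := slope_rel (red_eq (ρ := ρ) h₁.1) (red_eq h₂.1) hxy'
  simp only [map_a₁, map_a₂, map_a₃, map_a₄] at c2
  have hm : (E₀.map ρ).toAffine.slope (ρ x₁) (ρ x₂) (ρ y₁) (ρ y₂) = ρ L := by
    rcases hne with h5 | h5
    · apply mul_right_cancel₀ h5
      rw [← c1, ← b1]
    · apply mul_right_cancel₀ h5
      rw [c2, b2]
  have ex : (E₀.map v.integer.subtype).toAffine.addX x₁ x₂ L =
      (E₀.toAffine.addX x₁ x₂ L : v.integer) := map_addX v.integer.subtype x₁ x₂ L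
  have ey : (E₀.map v.integer.subtype).toAffine.addY x₁ x₂ y₁ L =
      (E₀.toAffine.addY x₁ x₂ y₁ L : v.integer) := map_addY v.integer.subtype x₁ y₁ x₂ L
  refine ⟨E₀.toAffine.addX x₁ x₂ L, E₀.toAffine.addY x₁ x₂ y₁ L, ex ▸ ey ▸ h3, e3.trans ?_, ?_, ?_⟩
  · congr 1
  · rw [hm]; exact (map_addX ρ x₁ x₂ L).symm
  · rw [hm]; exact (map_addY ρ x₁ y₁ x₂ L).symm

theorem ns_int {x y : v.integer} (h : (E₀.map v.integer.subtype).toAffine.Nonsingular x y) :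
    Ns v (Point.some _ _ h) ↔ (E₀.map ρ).toAffine.Nonsingular (ρ x) (ρ y) := by
  have e1 : phi (E₀.map ρ) (ρ x) (ρ y) =
      ρ (3 * x ^ 2 + 2 * E₀.a₂ * x + E₀.a₄ - E₀.a₁ * y) := by simp [phi, map_ofNat]
  have e2 : psi (E₀.map ρ) (ρ x) (ρ y) = ρ (2 * y + E₀.a₁ * x + E₀.a₃) := by simp [psi, map_ofNat]
  rw [nonsing_iff, e1, e2, Ne, Ne, hρ, hρ, and_iff_right (red_eq h.1)]
  exact or_iff_right (not_not.2 x.2)

variable (hr : ∀ a : v.integer, r a = ρ a)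
include hr

omit hρ in
theorem rd_some {x y : v.integer} (h : (E₀.map v.integer.subtype).toAffine.Nonsingular x y)
    (n : (E₀.map ρ).toAffine.Nonsingular (ρ x) (ρ y)) :
    redP E₀ ρ r (.some x y h) = .some _ _ n := by
  have hx : (x : K) ∈ {z | v z ≤ 1} := x.2
  simp only [redP, ptRed, if_pos hx, hr]
  exact pt_of _

omit hρ hr in
theorem rd_ker {Q : (E₀.map v.integer.subtype).toAffine.Point} (h : KerV v Q) :
    redP E₀ ρ r Q = 0 := by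
  rcases Q with _ | ⟨x, y, h'⟩
  · rfl
  · exact if_neg h

omit hρ hr in
theorem neg_int {x y : v.integer} (h : (E₀.map v.integer.subtype).toAffine.Nonsingular x y) :
    ∃ h' : (E₀.map v.integer.subtype).toAffine.Nonsingular x (E₀.toAffine.negY x y : v.integer),
      -(Point.some (x : K) (y : K) h) = .some _ _ h' := by
  have e0 : (E₀.map v.integer.subtype).toAffine.negY x y = (E₀.toAffine.negY x y : v.integer) :=
    map_negY v.integer.subtype x y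
  refine ⟨by rw [← e0]; exact (nonsingular_neg _ _).2 h, ?_⟩
  rw [Point.neg_some]
  congr 1

theorem ns_add_ker {P Q : (E₀.map v.integer.subtype).toAffine.Point} (hP : ¬ KerV v P)
    (nP : Ns v P) (hQ : KerV v Q) : Ns v (P + Q) ∧ redP E₀ ρ r (P + Q) = redP E₀ ρ r P := by
  have hS : ¬ KerV v (P + Q) := fun h => hP (by
    simpa using kerV_add (coeffIn_map E₀) h (kerV_neg.2 hQ))
  obtain ⟨x, y, h, rfl⟩ := exists_int hP
  obtain ⟨x', y', h', e⟩ := exists_int hS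
  obtain ⟨k, e'⟩ := neg_int h
  have c : ρ x' = ρ x ∧ ρ y' = ρ y := by
    by_contra c
    obtain ⟨x₃, y₃, h₃, e₃, -⟩ := add_int hρ h' k (by
      rwa [← map_negY ρ, (E₀.map ρ).toAffine.negY_negY])
    rw [← e, ← e', add_neg_cancel_comm] at e₃
    exact (e₃ ▸ hQ :) x₃.2
  have n := (ns_int hρ h).1 nP
  have n' : (E₀.map ρ).toAffine.Nonsingular (ρ x') (ρ y') := by rwa [c.1, c.2]
  rw [e, rd_some hr h n, rd_some hr h' n']
  exact ⟨(ns_int hρ h').2 n', by simp only [c.1, c.2]⟩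

theorem ns_add {P Q : (E₀.map v.integer.subtype).toAffine.Point} (nP : Ns v P) (nQ : Ns v Q) :
    Ns v (P + Q) ∧ redP E₀ ρ r (P + Q) = redP E₀ ρ r P + redP E₀ ρ r Q := by
  by_cases hP : KerV v P
  · by_cases hQ : KerV v Q
    · have := kerV_add (coeffIn_map E₀) hP hQ
      exact ⟨ns_ker this, by rw [rd_ker this, rd_ker hP, rd_ker hQ, add_zero]⟩
    · rw [add_comm, rd_ker hP, zero_add]
      exact ns_add_ker hρ hr hQ nQ hP
  by_cases hQ : KerV v Q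
  · rw [rd_ker hQ, add_zero]
    exact ns_add_ker hρ hr hP nP hQ
  obtain ⟨x₁, y₁, h₁, rfl⟩ := exists_int hP
  obtain ⟨x₂, y₂, h₂, rfl⟩ := exists_int hQ
  have n₁ := (ns_int hρ h₁).1 nP
  have n₂ := (ns_int hρ h₂).1 nQ
  rw [rd_some hr h₁ n₁, rd_some hr h₂ n₂]
  by_cases c : ρ x₁ = ρ x₂ ∧ ρ y₁ = (E₀.map ρ).toAffine.negY (ρ x₂) (ρ y₂)
  · have := add_ker h₁ h₂ n₂ c.1 c.2
    exact ⟨ns_ker this, by rw [rd_ker this, Point.add_of_Y_eq c.1 c.2]⟩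
  · obtain ⟨x₃, y₃, h₃, e, ex, ey⟩ := add_int hρ h₁ h₂ c
    have n₃ := nonsingular_add n₁ n₂ c
    rw [← ex, ← ey] at n₃
    rw [e, rd_some hr h₃ n₃, Point.add_some c]
    exact ⟨(ns_int hρ h₃).2 n₃, by simp only [ex, ey]⟩

omit hr in
theorem ns_neg {P : (E₀.map v.integer.subtype).toAffine.Point} (nP : Ns v P) : Ns v (-P) := by
  by_cases hP : KerV v P
  · exact ns_ker (kerV_neg.2 hP)
  obtain ⟨x, y, h, rfl⟩ := exists_int hP
  obtain ⟨k, e⟩ := neg_int h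
  rw [e, ns_int hρ, ← map_negY ρ]
  exact (nonsingular_neg _ _).2 ((ns_int hρ h).1 nP)

end Red

variable {E : WeierstrassCurve K}

/-- the kernel of the reduction -/
def E1 (hc : CoeffIn E {z | v z ≤ 1}) : AddSubgroup E.toAffine.Point where
  carrier := {P | KerV v P}
  zero_mem' := trivial
  add_mem' := kerV_add hc
  neg_mem' := kerV_neg.2

/-- the points with nonsingular reduction -/
def E0 (hc : CoeffIn E {z | v z ≤ 1}) : AddSubgroup E.toAffine.Point where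
  carrier := {P | Ns v P}
  zero_mem' := trivial
  add_mem' := fun a b => by
    obtain ⟨E₀, rfl⟩ := exists_int_model hc
    obtain ⟨R, _, r, h1, ha, hm, h0, -⟩ := exists_red v
    obtain ⟨ρ, hr, hρ⟩ := exists_rho h1 ha hm h0
    exact (ns_add hρ hr a b).1
  neg_mem' := fun a => by
    obtain ⟨E₀, rfl⟩ := exists_int_model hc
    obtain ⟨R, _, r, h1, ha, hm, h0, -⟩ := exists_red v
    obtain ⟨ρ, -, hρ⟩ := exists_rho h1 ha hm h0
    exact ns_neg hρ a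

/-- `r` is a reduction map and `Eb` is the reduced curve -/
structure Rd (v : Valuation K Γ) {R : Type} [Field R] (r : K → R) (E : WeierstrassCurve K)
    (Eb : WeierstrassCurve R) : Prop where
  one : r 1 = 1
  add : ∀ a b, v a ≤ 1 → v b ≤ 1 → r (a + b) = r a + r b
  mul : ∀ a b, v a ≤ 1 → v b ≤ 1 → r (a * b) = r a * r b
  zero : ∀ a, v a ≤ 1 → (r a = 0 ↔ v a < 1)
  a₁ : Eb.a₁ = r E.a₁
  a₂ : Eb.a₂ = r E.a₂
  a₃ : Eb.a₃ = r E.a₃
  a₄ : Eb.a₄ = r E.a₄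
  a₆ : Eb.a₆ = r E.a₆

theorem Rd.model {R : Type} [Field R] {r : K → R} {Eb : WeierstrassCurve R}
    (hc : CoeffIn E {z | v z ≤ 1}) (h : Rd v r E Eb) : ∃ (E₀ : WeierstrassCurve v.integer)
      (ρ : v.integer →+* R), E₀.map v.integer.subtype = E ∧ E₀.map ρ = Eb ∧
      (∀ a : v.integer, r a = ρ a) ∧ ∀ c : v.integer, ρ c = 0 ↔ v c < 1 := by
  obtain ⟨E₀, rfl⟩ := exists_int_model hc
  obtain ⟨ρ, hr, hρ⟩ := exists_rho h.one h.add h.mul h.zero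
  refine ⟨E₀, ρ, rfl, ?_, hr, hρ⟩
  ext
  exacts [(h.a₁.trans (hr _)).symm, (h.a₂.trans (hr _)).symm, (h.a₃.trans (hr _)).symm,
    (h.a₄.trans (hr _)).symm, (h.a₆.trans (hr _)).symm]

/-- **the reduction of the points with nonsingular reduction** -/
theorem ex_red {R : Type} [Field R] {r : K → R} {Eb : WeierstrassCurve R}
    (hc : CoeffIn E {z | v z ≤ 1}) (h : Rd v r E Eb) : ∃ f : E0 hc →+ Eb.toAffine.Point,
      (∀ P, f P = 0 ↔ KerV v P.1) ∧ ∀ x y (k : E.toAffine.Nonsingular x y), v x ≤ 1 →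
        ∀ n : Eb.toAffine.Nonsingular (r x) (r y), ∃ m, f ⟨.some x y k, m⟩ = .some _ _ n := by
  obtain ⟨E₀, ρ, rfl, rfl, hr, hρ⟩ := h.model hc
  refine ⟨AddMonoidHom.mk' (fun P => redP E₀ ρ r P.1) fun a b => (ns_add hρ hr a.2 b.2).2,
    fun ⟨P, m⟩ => ⟨fun e => by_contra fun k => ?_, rd_ker⟩, fun x y k hx n => ?_⟩
  · obtain ⟨x, y, h, rfl⟩ := exists_int k
    exact Point.some_ne_zero _ ((rd_some hr h ((ns_int hρ h).1 m)).symm.trans e)
  · lift x to v.integer using hx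
    lift y to v.integer using y_int hc k.1 x.2
    have n' : (E₀.map ρ).toAffine.Nonsingular (ρ x) (ρ y) := by rwa [← hr, ← hr]
    exact ⟨(ns_int hρ k).2 n', (rd_some hr k n').trans (by simp only [hr])⟩

end Vale.Agent.P014T.Lc
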