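import Vale.Agent.P014T.Lc.Np

/-!
# P014T: removing finitely many Euler factors, with the exact value at `s = 1`
-/

open Filter Topology

namespace Vale.Agent.P014T.Lc

open Vale.Agent.P014

namespace Eu

theorem cg {f g : ℕ → ℂ} {z : ℂ} (h : HasSum f z) (e : ∀ n, f n = g n) : HasSum g z :=
  (funext e : f = g) ▸ h

theorem shift {p : ℕ} (hp : p ≠ 0) {G : ℕ → ℂ} {z : ℂ} (h : HasSum G z) :
    HasSum (fun n => if p ∣ n then G (n / p) else 0) z := by
  rw [← (mul_right_injective₀ hp).hasSum_iff]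
  · have e : ((fun n => if p ∣ n then G (n / p) else 0) ∘ fun m => p * m) = G := by
      funext m
      rw [Function.comp_apply, if_pos (dvd_mul_right _ _),
        Nat.mul_div_cancel_left _ (Nat.pos_of_ne_zero hp)]
    rwa [e]
  · intro n hn
    rw [if_neg]
    rintro ⟨m, rfl⟩
    exact hn ⟨m, rfl⟩

/-- the Hecke relation at `p` -/
def Rel (a : ℕ → ℂ) (p : ℕ) (T R : ℂ) : Prop :=
  ∀ n, a (p * n) = T * a n - if p ∣ n then R * a (n / p) else 0

/-- the Euler factor -/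
noncomputable def ef (p : ℕ) (T R s : ℂ) : ℂ := 1 - T * (p : ℂ) ^ (-s) + R * ((p : ℂ) ^ (-s)) ^ 2

theorem one {a : ℕ → ℂ} {p : ℕ} (hp : p ≠ 0) {T R : ℂ} (h : Rel a p T R) {s z : ℂ}
    (hs : HasSum (fun n : ℕ => a n / (n : ℂ) ^ s) z) :
    HasSum (fun n : ℕ => (if p ∣ n then 0 else a n) / (n : ℂ) ^ s) (ef p T R s * z) := by
  have hp0 : (p : ℂ) ≠ 0 := by exact_mod_cast hp
  have hne : (p : ℂ) ^ s ≠ 0 := by
    rw [Complex.cpow_def_of_ne_zero hp0]
    exact Complex.exp_ne_zero _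
  have k := (hs.sub ((shift hp hs).mul_left (T * (p : ℂ) ^ (-s)))).add
    ((shift hp (shift hp hs)).mul_left (R * ((p : ℂ) ^ (-s)) ^ 2))
  have e : ef p T R s * z = z - T * (p : ℂ) ^ (-s) * z + R * ((p : ℂ) ^ (-s)) ^ 2 * z := by
    rw [ef]
    ring
  rw [e]
  refine cg k fun n => ?_
  by_cases hn : p ∣ n
  · obtain ⟨m, rfl⟩ := hn
    simp only [if_pos (dvd_mul_right p m), Nat.mul_div_cancel_left _ (Nat.pos_of_ne_zero hp)]
    rw [h, Nat.cast_mul, Complex.natCast_mul_natCast_cpow, Complex.cpow_neg, zero_div]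
    by_cases hm : p ∣ m
    · obtain ⟨l, rfl⟩ := hm
      simp only [if_pos (dvd_mul_right p l), Nat.mul_div_cancel_left _ (Nat.pos_of_ne_zero hp)]
      rw [Nat.cast_mul, Complex.natCast_mul_natCast_cpow]
      simp only [div_eq_mul_inv, mul_inv]
      ring
    · simp only [if_neg hm, div_eq_mul_inv, mul_inv]
      ring
  · simp only [if_neg hn]
    ring

theorem Rel.dep {a : ℕ → ℂ} {q : ℕ} {T R : ℂ} (h : Rel a q T R) (hq : q.Prime) {p : ℕ}
    (hp : p.Prime) (hne : p ≠ q) : Rel (fun n => if p ∣ n then 0 else a n) q T R := by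
  intro n
  have e : ∀ m, p ∣ q * m ↔ p ∣ m := fun m =>
    ((Nat.coprime_primes hp hq).2 hne).dvd_mul_left
  simp only [e]
  by_cases h1 : p ∣ n
  · rw [if_pos h1, if_pos h1]
    split_ifs with h2 h3
    · simp
    · obtain ⟨m, rfl⟩ := h2
      rw [Nat.mul_div_cancel_left _ hq.pos] at h3
      exact absurd ((e m).1 h1) h3
    · simp
  · rw [if_neg h1, if_neg h1, h]
    split_ifs with h2 h3
    · exact absurd (h3.trans (Nat.div_dvd_of_dvd h2)) h1
    · rfl
    · rfl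

open scoped Classical in
theorem many (T R : ℕ → ℂ) (s : ℂ) (S : Finset ℕ) : ∀ (a : ℕ → ℂ) (z : ℂ), (∀ p ∈ S, p.Prime) →
    (∀ p ∈ S, Rel a p (T p) (R p)) → HasSum (fun n : ℕ => a n / (n : ℂ) ^ s) z →
    HasSum (fun n : ℕ => (if ∃ p ∈ S, p ∣ n then 0 else a n) / (n : ℂ) ^ s)
      ((∏ p ∈ S, ef p (T p) (R p) s) * z) := by
  induction S using Finset.induction_on with
  | empty => intro a z _ _ h; simpa using h
  | insert q S hq ih =>
    intro a z h1 h2 h
    have hq' := h1 q (Finset.mem_insert_self _ _)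
    have k := ih _ _ (fun p hp => h1 p (Finset.mem_insert_of_mem hp))
      (fun p hp => (h2 p (Finset.mem_insert_of_mem hp)).dep (h1 p (Finset.mem_insert_of_mem hp))
        hq' (fun e => hq (e ▸ hp))) (one hq'.ne_zero (h2 q (Finset.mem_insert_self _ _)) h)
    rw [Finset.prod_insert hq, mul_comm (ef q _ _ _), mul_assoc]
    refine cg k fun n => ?_
    by_cases h3 : ∃ p ∈ S, p ∣ n
    · obtain ⟨p, hp, h4⟩ := id h3
      rw [if_pos h3, if_pos ⟨p, Finset.mem_insert_of_mem hp, h4⟩]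
    · rw [if_neg h3]
      by_cases h4 : q ∣ n
      · rw [if_pos h4, if_pos ⟨q, Finset.mem_insert_self _ _, h4⟩]
      · rw [if_neg h4, if_neg]
        rintro ⟨p, hp, h5⟩
        rcases Finset.mem_insert.1 hp with rfl | hp
        · exact h4 h5
        · exact h3 ⟨p, hp, h5⟩

/-- **removing the Euler factors at the primes dividing `B`** -/
theorem dep {a : ℕ → ℂ} (T R : ℕ → ℂ) {B : ℕ} (hB : B ≠ 0)
    (h : ∀ p, p.Prime → p ∣ B → Rel a p (T p) (R p)) {s z : ℂ}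
    (hs : HasSum (fun n : ℕ => a n / (n : ℂ) ^ s) z) :
    HasSum (fun n : ℕ => (if n.Coprime B then a n else 0) / (n : ℂ) ^ s)
      ((∏ p ∈ B.primeFactors, ef p (T p) (R p) s) * z) := by
  have k := many T R s B.primeFactors a z (fun p hp => (Nat.mem_primeFactors.1 hp).1)
    (fun p hp => h p (Nat.mem_primeFactors.1 hp).1 (Nat.mem_primeFactors.1 hp).2.1) hs
  refine cg k fun n => ?_
  by_cases hn : n.Coprime B
  · rw [if_pos hn, if_neg]
    rintro ⟨p, hp, hpn⟩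
    obtain ⟨hpp, hpB, -⟩ := Nat.mem_primeFactors.1 hp
    exact hpp.one_lt.ne' (Nat.eq_one_of_dvd_coprimes hn hpn hpB)
  · rw [if_neg hn, if_pos]
    obtain ⟨p, hpp, h1, h2⟩ := Nat.Prime.not_coprime_iff_dvd.1 hn
    exact ⟨p, Nat.mem_primeFactors.2 ⟨hpp, h2, hB⟩, h1⟩

theorem hasSum_iff {a : ℕ → ℂ} (h0 : a 0 = 0) {s z : ℂ} :
    LSeriesHasSum a s z ↔ HasSum (fun n : ℕ => a n / (n : ℂ) ^ s) z := by
  have e : LSeries.term a s = fun n : ℕ => a n / (n : ℂ) ^ s := by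
    funext n
    rw [LSeries.term_def]
    split_ifs with h
    · rw [h, h0, zero_div]
    · rfl
  rw [LSeriesHasSum, e]

theorem ef_diff {p : ℕ} (hp : p ≠ 0) (T R : ℂ) : Differentiable ℂ (ef p T R) := by
  have h : Differentiable ℂ fun s : ℂ => (p : ℂ) ^ (-s) :=
    differentiable_neg.const_cpow (Or.inl (by exact_mod_cast hp))
  exact ((differentiable_const _).sub (h.const_mul _)).add ((h.pow 2).const_mul _)

theorem ef_one (p : ℕ) (T R : ℂ) : ef p T R 1 = 1 - T / p + R / p ^ 2 := by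
  rw [ef, Complex.cpow_neg_one, inv_pow, div_eq_mul_inv, div_eq_mul_inv]

/-- two functions analytic on `1 ≤ re s` which agree far to the right agree near `1` -/
theorem near_one {L L' : ℂ → ℂ} (h : AnalyticOnNhd ℂ L {s : ℂ | 1 ≤ s.re})
    (h' : AnalyticOnNhd ℂ L' {s : ℂ | 1 ≤ s.re}) (e : ∀ s : ℂ, 2 < s.re → L s = L' s) :
    (∀ s : ℂ, 1 ≤ s.re → L s = L' s) ∧ L =ᶠ[𝓝 1] L' := by
  have heq : L =ᶠ[𝓝 (3 : ℂ)] L' := by
    have ho : IsOpen {s : ℂ | 2 < s.re} := isOpen_lt continuous_const Complex.continuous_re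
    filter_upwards [ho.mem_nhds (show (2 : ℝ) < (3 : ℂ).re by norm_num)] with s hs using e s hs
  have hall := h.eqOn_of_preconnected_of_eventuallyEq h' (convex_halfSpace_re_ge 1).isPreconnected
    (show (1 : ℝ) ≤ (3 : ℂ).re by norm_num) heq
  refine ⟨fun s hs => hall hs, ?_⟩
  have h1 : (1 : ℂ) ∈ {s : ℂ | 1 ≤ s.re} := by simp
  refine ((h 1 h1).frequently_eq_iff_eventually_eq (h' 1 h1)).1 ?_
  rw [frequently_nhdsWithin_iff, Metric.nhds_basis_ball.frequently_iff]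
  intro ε hε
  refine ⟨1 + (ε / 2 : ℝ), ?_, hall ?_, fun h2 => ?_⟩
  · rw [Metric.mem_ball, dist_eq_norm, add_sub_cancel_left, Complex.norm_real,
      Real.norm_of_nonneg (by linarith)]
    linarith
  · show (1 : ℝ) ≤ (1 + ((ε / 2 : ℝ) : ℂ)).re
    rw [Complex.add_re, Complex.one_re, Complex.ofReal_re]
    linarith
  · have h4 : (1 + ((ε / 2 : ℝ) : ℂ)) = 1 := h2
    have h3 : ((ε / 2 : ℝ) : ℂ) = 0 := by linear_combination h4
    rw [Complex.ofReal_eq_zero] at h3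
    linarith

/-- the leading term of a product -/
theorem lead {E L : ℂ → ℂ} {x : ℂ} (hE : AnalyticAt ℂ E x) (hL : AnalyticAt ℂ L x) (r : ℕ)
    (h0 : ∀ j < r, iteratedDeriv j L x = 0) :
    iteratedDeriv r (fun s => E s * L s) x = E x * iteratedDeriv r L x := by
  rw [iteratedDeriv_fun_mul hE.contDiffAt hL.contDiffAt, Finset.sum_eq_single 0]
  · simp
  · intro j hj h1
    rw [h0 (r - j) (by have := Finset.mem_range.1 hj; omega), mul_zero]
  · intro h
    simp at h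

theorem zero_of_order {L : ℂ → ℂ} {x : ℂ} (hL : AnalyticAt ℂ L x) {r : ℕ}
    (h : (r : ℕ∞) ≤ analyticOrderAt L x) : ∀ j < r, iteratedDeriv j L x = 0 :=
  (natCast_le_analyticOrderAt_iff_iteratedDeriv_eq_zero hL).1 h

/-- the general form: `L'` is the series with the Euler factors at `B` removed -/
theorem cont {a : ℕ → ℂ} (T R : ℕ → ℂ) {B : ℕ} (hB : B ≠ 0)
    (h : ∀ p, p.Prime → p ∣ B → Rel a p (T p) (R p)) {L L' : ℂ → ℂ}
    (hL : AnalyticOnNhd ℂ L {s : ℂ | 1 ≤ s.re}) (hL' : AnalyticOnNhd ℂ L' {s : ℂ | 1 ≤ s.re})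
    (hs : ∀ s : ℂ, 2 < s.re → HasSum (fun n : ℕ => a n / (n : ℂ) ^ s) (L s))
    (hs' : ∀ s : ℂ, 2 < s.re →
      L' s = ∑' n : ℕ, (if n.Coprime B then a n else 0) / (n : ℂ) ^ s) :
    L' =ᶠ[𝓝 1] (fun s => (∏ p ∈ B.primeFactors, ef p (T p) (R p) s) * L s) ∧
    ∀ r : ℕ, (∀ j < r, iteratedDeriv j L 1 = 0) → iteratedDeriv r L' 1 =
      (∏ p ∈ B.primeFactors, (1 - T p / p + R p / p ^ 2)) * iteratedDeriv r L 1 := by
  have hE : Differentiable ℂ fun s => ∏ p ∈ B.primeFactors, ef p (T p) (R p) s :=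
    Differentiable.fun_finsetProd fun p hp => ef_diff (Nat.mem_primeFactors.1 hp).1.ne_zero _ _
  have k := (near_one hL' (fun s hs => (hE.analyticAt s).mul (hL s hs)) fun s h2 => by
    rw [hs' s h2]
    exact (dep T R hB h (hs s h2)).tsum_eq).2
  refine ⟨k, fun r hr => ?_⟩
  rw [k.iteratedDeriv_eq r]
  refine (lead (hE.analyticAt 1) (hL 1 (by simp)) r hr).trans ?_
  simp only [ef_one]

end Eu

open Eu

variable (W : WeierstrassCurve ℤ) (hΔ : W.Δ ≠ 0)
  (hm : GlobalMinimal (W.map (Int.castRingHom ℚ)))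

include hΔ hm

theorem rel_lf {p : ℕ} (hp : p.Prime) :
    Rel (fun n => ((W.map (Int.castRingHom ℚ)).LFunction n : ℂ)) p
      ((p : ℂ) + ep W p - np W p) (ep W p * p) := by
  intro n
  simp only [lf_rel W hΔ hm hp n]
  split_ifs <;> push_cast <;> rfl

/-- **the `L`-function without the Euler factors at `B`**: `L_B = L ∏ P_p(p ^ (-s))`,
`P_p(1 / p) = n_p / p` -/
theorem eul {B : ℕ} (hB : B ≠ 0) {L L' : ℂ → ℂ}
    (hL : AnalyticOnNhd ℂ L {s : ℂ | 1 ≤ s.re}) (hL' : AnalyticOnNhd ℂ L' {s : ℂ | 1 ≤ s.re})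
    (hs : ∀ s : ℂ, 2 < s.re →
      LSeriesHasSum (fun n => ((W.map (Int.castRingHom ℚ)).LFunction n : ℂ)) s (L s))
    (hs' : ∀ s : ℂ, 2 < s.re → L' s = ∑' n : ℕ,
      (if n.Coprime B then ((W.map (Int.castRingHom ℚ)).LFunction n : ℂ) else 0) / (n : ℂ) ^ s) :
    analyticOrderAt L' 1 = analyticOrderAt L 1 ∧
    ∀ r : ℕ, (r : ℕ∞) ≤ analyticOrderAt L 1 → iteratedDeriv r L' 1 =
      (∏ p ∈ B.primeFactors, ((np W p : ℂ) / p)) * iteratedDeriv r L 1 := by
  obtain ⟨k1, k2⟩ := cont (fun p => (p : ℂ) + ep W p - np W p) (fun p => ep W p * p) hB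
    (fun p hp _ => rel_lf W hΔ hm hp) hL hL' (fun s h => (hasSum_iff (by simp)).1 (hs s h)) hs'
  have e : ∀ p ∈ B.primeFactors, (1 - ((p : ℂ) + ep W p - np W p) / p + ep W p * p / p ^ 2) =
      (np W p : ℂ) / p := by
    intro p hp
    have : (p : ℂ) ≠ 0 := by exact_mod_cast (Nat.mem_primeFactors.1 hp).1.ne_zero
    field_simp
    ring
  have h1 := hL 1 (by simp)
  refine ⟨?_, fun r hr => by rw [k2 r (zero_of_order h1 hr), Finset.prod_congr rfl e]⟩
  have hE : AnalyticAt ℂ (fun s => ∏ p ∈ B.primeFactors,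
      ef p ((p : ℂ) + ep W p - np W p) (ep W p * p) s) 1 :=
    (Differentiable.fun_finsetProd fun p hp =>
      ef_diff (Nat.mem_primeFactors.1 hp).1.ne_zero _ _).analyticAt 1
  have h3 := hE.analyticOrderAt_eq_zero.2 (by
    simp only [ef_one]
    rw [Finset.prod_congr rfl e]
    refine Finset.prod_ne_zero_iff.2 fun p hp => div_ne_zero ?_ ?_
    · exact_mod_cast (np_pos W (Nat.mem_primeFactors.1 hp).1).ne'
    · exact_mod_cast (Nat.mem_primeFactors.1 hp).1.ne_zero)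
  rw [analyticOrderAt_congr k1]
  refine (analyticOrderAt_mul hE h1).trans ?_
  rw [h3, zero_add]

end Vale.Agent.P014T.Lc
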