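import Vale.Agent.P014T.Lc.E0

/-! # P014T, local points: the formal parameter -/

set_option linter.all false

open scoped Classical
open WeierstrassCurve WeierstrassCurve.Affine P179W

noncomputable section

namespace Vale.Agent.P014T.Lc

variable {K : Type} [Field K] {Γ : Type} [LinearOrderedCommGroupWithZero Γ] {v : Valuation K Γ}
  {E : WeierstrassCurve K}

/-- the formal parameter `-x / y` -/
def zf : E.toAffine.Point → K
  | .zero => 0
  | .some x y _ => -x / y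

theorem zf_zero : zf (0 : E.toAffine.Point) = 0 := rfl

theorem sq_one {a b : Γ} (h : a ^ 2 = b ^ 2) : a = b :=
  (pow_left_inj₀ zero_le' zero_le' two_ne_zero).1 h

theorem quad_eq {y a b c : K} (ha : v a ≤ 1) (hc : v c ≤ 1) (e : y ^ 2 + a * y - c = b)
    (hb : 1 < v b) : v b = v y ^ 2 := by
  have hy : 1 < v y := not_le.1 fun hy => hb.not_ge (e ▸ v.map_sub_le
    (v.map_add_le (val_pow_le_one hy 2) (val_mul_le_one ha hy)) hc)
  rw [← e, add_sub_assoc, v.map_add_eq_of_lt_left, map_pow]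
  rw [map_pow]
  refine lt_of_le_of_lt (b := v y ^ 1) ?_ (pow_lt_pow_right₀ hy (by norm_num))
  rw [pow_one]
  exact v.map_sub_le (by simpa using val_mul_le ha (le_refl (v y))) (hc.trans hy.le)

variable (hc : CoeffIn E {z | v z ≤ 1})
include hc

theorem bas {x y : K} (h : E.toAffine.Equation x y) (hx : 1 < v x) :
    x ≠ 0 ∧ y ≠ 0 ∧ v x * v (-x / y) ^ 2 = 1 ∧ v (-x / y) < 1 := by
  obtain ⟨c1, c2, c3, c4, c6⟩ := hc
  have p : 0 < v x := zero_lt_one.trans hx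
  have x0 : x ≠ 0 := (map_ne_zero v).1 p.ne'
  rw [equation_iff] at h
  have i : v x⁻¹ < 1 := by rw [map_inv₀]; exact inv_lt_one_of_one_lt₀ hx
  have s : v (x + (E.a₂ + E.a₄ * x⁻¹ + E.a₆ * x⁻¹ ^ 2)) = v x := v.map_add_eq_of_lt_left
    ((v.map_add_le (v.map_add_le c2 (val_mul_le_one c4 i.le))
      (val_mul_le_one c6 (val_pow_le_one i.le 2))).trans_lt hx)
  have e := quad_eq (y := y / x) (a := E.a₁ + E.a₃ * x⁻¹) (c := 0)
    (v.map_add_le c1 (val_mul_le_one c3 i.le)) (by simp) (by field_simp; linear_combination h)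
    (s.symm ▸ hx)
  rw [s] at e
  have y0 : y ≠ 0 := by
    rintro rfl
    simp [x0] at e
  have e2 : v x * v (-x / y) ^ 2 = 1 := by
    rw [e, ← mul_pow, ← map_mul, show y / x * (-x / y) = -1 by field_simp]
    simp
  exact ⟨x0, y0, e2, not_le.1 fun k => (one_lt_mul_of_lt_of_le hx (one_le_pow₀ k)).ne' e2⟩

theorem zf_lt {P : E.toAffine.Point} (h : KerV v P) : v (zf P) < 1 := by
  rcases P with _ | ⟨x, y, h'⟩
  · simp [zf]
  · exact (bas hc h'.1 (not_le.1 h)).2.2.2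

theorem zf_eq_zero {P : E.toAffine.Point} (h : KerV v P) (e : zf P = 0) : P = 0 := by
  rcases P with _ | ⟨x, y, h'⟩
  · rfl
  · obtain ⟨x0, y0, -⟩ := bas hc h'.1 (not_le.1 h)
    exact absurd e (div_ne_zero (neg_ne_zero.2 x0) y0)

theorem neg_eq {x y : K} (h : E.toAffine.Equation x y) (hx : 1 < v x) :
    v (-x / E.toAffine.negY x y) = v (-x / y) :=
  sq_one (mul_left_cancel₀ (zero_lt_one.trans hx).ne'
    ((bas hc ((equation_neg _ _).2 h) hx).2.2.1.trans (bas hc h hx).2.2.1.symm))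

theorem v_neg {P : E.toAffine.Point} (h : KerV v P) : v (zf (-P)) = v (zf P) := by
  rcases P with _ | ⟨x, y, h'⟩
  · rfl
  · exact neg_eq hc h'.1 (not_le.1 h)

/-- **the addition law** -/
theorem add_le {P Q : E.toAffine.Point} (h : KerV v P) (k : KerV v Q) :
    v (zf (P + Q) - (zf P + zf Q)) ≤ v (zf P) * v (zf Q) := by
  have hs := kerV_add hc h k
  rcases P with _ | ⟨x₁, y₁, h₁⟩
  · change v (zf (0 + Q) - (0 + zf Q)) ≤ _
    simp
  rcases Q with _ | ⟨x₂, y₂, h₂⟩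
  · change v (zf (_ + 0) - (_ + 0)) ≤ _
    simp
  have g1 : 1 < v x₁ := not_le.1 h
  have g2 : 1 < v x₂ := not_le.1 k
  obtain ⟨u1, w1, t1, m1⟩ := bas hc h₁.1 g1
  obtain ⟨u2, w2, t2, m2⟩ := bas hc h₂.1 g2
  have i : ∀ {x : K}, 1 < v x → v x⁻¹ < 1 := fun hx => by
    rw [map_inv₀]; exact inv_lt_one_of_one_lt₀ hx
  by_cases hxy : x₁ = x₂ ∧ y₁ = E.toAffine.negY x₂ y₂
  · rw [Point.add_of_Y_eq hxy.1 hxy.2]
    obtain ⟨rfl, e⟩ := hxy
    change v (0 - (-x₁ / y₁ + -x₁ / y₂)) ≤ v (-x₁ / y₁) * v (-x₁ / y₂)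
    have : 0 - (-x₁ / y₁ + -x₁ / y₂) = -(E.a₁ + E.a₃ * x₁⁻¹) * (-x₁ / y₁ * (-x₁ / y₂)) := by
      rw [negY] at e
      field_simp
      linear_combination x₁ * e
    rw [this, map_mul, Valuation.map_neg, map_mul]
    exact mul_le_of_le_one_left' (v.map_add_le hc.1 (val_mul_le_one hc.2.2.1 (i g1).le))
  have h₃ := nonsingular_negAdd h₁ h₂ hxy
  rw [Point.add_some hxy] at hs ⊢
  obtain ⟨l, n, x₃, hl, hx₃, e₁, e₂, e₃, s1, s2, s3⟩ := line_rel h₁.1 h₂.1 hxy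
  change ¬ v _ ≤ 1 at hs
  change v (-_ / E.toAffine.negY _ _ - (-x₁ / y₁ + -x₂ / y₂)) ≤ v (-x₁ / y₁) * v (-x₂ / y₂)
  rw [← hl, ← hx₃] at hs h₃ ⊢
  obtain ⟨y₃, e₄⟩ : ∃ y, y = l * x₃ + n := ⟨_, rfl⟩
  rw [e₃, ← e₄] at h₃ ⊢
  have g3 : 1 < v x₃ := not_le.1 hs
  obtain ⟨u3, w3, t3, m3⟩ := bas hc h₃.1 g3
  have w4 := (bas hc ((equation_neg _ _).2 h₃.1) g3).2.1
  have q3 := (equation_iff _ _).1 h₃.1
  obtain ⟨c1, c2, c3, c4, c6⟩ := hc
  have en := quad_eq c3 c6 s3.symm (by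
    rw [map_mul, map_mul]; exact one_lt_mul'' (one_lt_mul'' g1 g2) g3)
  have eb : v n * (v (-x₁ / y₁) * v (-x₂ / y₂) * v (-x₃ / y₃)) = 1 := sq_one (by
    rw [mul_pow, ← en, map_mul, map_mul, one_pow, ← mul_one (1 : Γ), ← mul_one (1 * 1 : Γ)]
    nth_rewrite 1 [← t1]
    nth_rewrite 1 [← t2]
    rw [← t3]
    simp only [mul_pow, mul_comm, mul_left_comm, mul_assoc])
  have n0 : n ≠ 0 := by
    rintro rfl
    simp at eb
  have a1 : v (x₃⁻¹ + l / n) = v (-x₁ / y₁) * v (-x₂ / y₂) := by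
    have : (x₃⁻¹ + l / n) * (n * (-x₃ / y₃)) = -1 := by
      field_simp
      linear_combination e₄
    have := congrArg v this
    rw [map_mul, map_mul, Valuation.map_neg, map_one, ← eb] at this
    refine mul_right_cancel₀ (b := v n * v (-x₃ / y₃)) (mul_ne_zero (by simpa)
      ((map_ne_zero v).2 (div_ne_zero (neg_ne_zero.2 u3) w3))) (this.trans ?_)
    simp only [mul_comm, mul_left_comm, mul_assoc]
  have a2 : v n⁻¹ ≤ v (-x₁ / y₁) * v (-x₂ / y₂) := by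
    rw [map_inv₀, ← eq_inv_of_mul_eq_one_right eb]
    exact mul_le_of_le_one_right' m3.le
  have b1 : v (-x₁ / y₁) * v (-x₂ / y₂) < 1 := mul_lt_one_of_nonneg_of_lt_one_left zero_le' m1 m2.le
  have b2 : v (-(l / n)) < 1 := by
    rw [show -(l / n) = x₃⁻¹ - (x₃⁻¹ + l / n) by ring]
    exact v.map_sub_lt (i g3) (a1 ▸ b1)
  have dd : ∀ s, v s < 1 → v (1 + s * (E.a₂ + E.a₄ * s + E.a₆ * s ^ 2)) = 1 := fun s hs =>
    v.map_one_add_of_lt (by
      rw [map_mul]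
      exact mul_lt_one_of_nonneg_of_lt_one_left zero_le' hs (v.map_add_le (v.map_add_le c2
        (val_mul_le_one c4 hs.le)) (val_mul_le_one c6 (val_pow_le_one hs.le 2))))
  have f1 : (-x₁ / y₁ + -x₂ / y₂ + -x₃ / y₃) *
      (1 + -(l / n) * (E.a₂ + E.a₄ * -(l / n) + E.a₆ * (-(l / n)) ^ 2)) =
      -(E.a₁ * -(l / n) + E.a₃ * (-(l / n)) ^ 2) +
        n⁻¹ * (E.a₂ + 2 * E.a₄ * -(l / n) + 3 * E.a₆ * (-(l / n)) ^ 2) := by
    have y3 : (n ^ 3 - E.a₂ * l * n ^ 2 + E.a₄ * l ^ 2 * n - E.a₆ * l ^ 3) =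
        y₁ * y₂ * y₃ := by
      rw [e₁, e₂, e₄]
      linear_combination -l * n ^ 2 * s1 - l ^ 2 * n * s2 - l ^ 3 * s3
    have : (1 + -(l / n) * (E.a₂ + E.a₄ * -(l / n) + E.a₆ * (-(l / n)) ^ 2)) =
        y₁ * y₂ * y₃ / n ^ 3 := by rw [← y3]; field_simp; ring
    rw [this]
    field_simp
    rw [e₁, e₂, e₄]
    linear_combination -n ^ 2 * s1 - 2 * l * n * s2 - 3 * l ^ 2 * s3
  have f2 : (-x₃ / y₃ + -x₃ / E.toAffine.negY x₃ y₃) *
      (1 + x₃⁻¹ * (E.a₂ + E.a₄ * x₃⁻¹ + E.a₆ * x₃⁻¹ ^ 2)) = -(E.a₁ * x₃⁻¹ + E.a₃ * x₃⁻¹ ^ 2) := by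
    have : (1 + x₃⁻¹ * (E.a₂ + E.a₄ * x₃⁻¹ + E.a₆ * x₃⁻¹ ^ 2)) =
        -(y₃ * E.toAffine.negY x₃ y₃) / x₃ ^ 3 := by
      rw [negY]; field_simp; linear_combination -q3
    rw [this]
    have e₅ : E.toAffine.negY x₃ y₃ = -y₃ - E.a₁ * x₃ - E.a₃ := rfl
    generalize E.toAffine.negY x₃ y₃ = y₄ at *
    field_simp
    linear_combination e₅
  have d1 := dd _ b2
  have d2 := dd _ (i g3)
  have j := (i g3).le
  replace b2 := b2.le
  rw [show x₃⁻¹ + l / n = x₃⁻¹ - -(l / n) by ring] at a1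
  generalize -(l / n) = s at *
  generalize x₃⁻¹ = t at *
  generalize -x₃ / E.toAffine.negY x₃ y₃ = z at *
  generalize -x₃ / y₃ = z₃ at *
  have f : (z - (-x₁ / y₁ + -x₂ / y₂)) * ((1 + s * (E.a₂ + E.a₄ * s + E.a₆ * s ^ 2)) *
      (1 + t * (E.a₂ + E.a₄ * t + E.a₆ * t ^ 2))) =
      -((t - s) * (E.a₁ * (1 - E.a₄ * s * t - E.a₆ * s * t * (s + t)) +
        E.a₃ * (s + t + E.a₂ * s * t - E.a₆ * s ^ 2 * t ^ 2))) -
      n⁻¹ * ((E.a₂ + 2 * E.a₄ * s + 3 * E.a₆ * s ^ 2) *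
        (1 + t * (E.a₂ + E.a₄ * t + E.a₆ * t ^ 2))) := by
    linear_combination (1 + s * (E.a₂ + E.a₄ * s + E.a₆ * s ^ 2)) * f2 -
      (1 + t * (E.a₂ + E.a₄ * t + E.a₆ * t ^ 2)) * f1
  have := congrArg v f
  rw [map_mul, map_mul, d1, d2, mul_one, mul_one] at this
  rw [this]
  have z1 : E.a₁ * (1 - E.a₄ * s * t - E.a₆ * s * t * (s + t)) +
      E.a₃ * (s + t + E.a₂ * s * t - E.a₆ * s ^ 2 * t ^ 2) ∈ v.integer := by
    change _ ∈ v.integer at c1 c2 c3 c4 c6 b2 j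
    apply_rules [add_mem, sub_mem, mul_mem, pow_mem, one_mem]
  have z2 : (E.a₂ + 2 * E.a₄ * s + 3 * E.a₆ * s ^ 2) *
      (1 + t * (E.a₂ + E.a₄ * t + E.a₆ * t ^ 2)) ∈ v.integer := by
    change _ ∈ v.integer at c1 c2 c3 c4 c6 b2 j
    apply_rules [add_mem, mul_mem, pow_mem, one_mem, ofNat_mem]
  refine v.map_sub_le ?_ (by simpa using val_mul_le a2 z2)
  rw [Valuation.map_neg]
  simpa using val_mul_le a1.le z1

/-- the parameter is an isometry -/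
theorem zf_sub {P Q : E.toAffine.Point} (h : KerV v P) (k : KerV v Q) :
    v (zf P - zf Q) = v (zf (P - Q)) := by
  have s : KerV v (P - Q) := (E1 hc).sub_mem h k
  have := add_le hc s k
  rw [sub_add_cancel] at this
  by_cases e : zf (P - Q) = 0
  · rw [sub_eq_zero.1 (zf_eq_zero hc s e)]
    simp [zf_zero]
  · rw [show zf P - zf Q = zf (P - Q) + (zf P - (zf (P - Q) + zf Q)) by ring]
    exact v.map_add_eq_of_lt_left (this.trans_lt
      (mul_lt_of_lt_one_right (zero_lt_iff.2 ((map_ne_zero v).2 e)) (zf_lt hc k)))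

theorem zf_inj {P Q : E.toAffine.Point} (h : KerV v P) (k : KerV v Q) (e : zf P = zf Q) : P = Q :=
  sub_eq_zero.1 (zf_eq_zero hc ((E1 hc).sub_mem h k)
    ((map_eq_zero v).1 (by rw [← zf_sub hc h k, e, sub_self, map_zero])))

/-- the filtration -/
def Fl (M : Γ) : AddSubgroup E.toAffine.Point where
  carrier := {P | KerV v P ∧ v (zf P) ≤ M}
  zero_mem' := ⟨trivial, by simp [zf_zero]⟩
  add_mem' := fun {P Q} a b => ⟨kerV_add hc a.1 b.1, by
    rw [← sub_add_cancel (zf (P + Q)) (zf P + zf Q)]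
    exact v.map_add_le ((add_le hc a.1 b.1).trans
      ((mul_le_of_le_one_right' (zf_lt hc b.1).le).trans a.2)) (v.map_add_le a.2 b.2)⟩
  neg_mem' := fun a => ⟨kerV_neg.2 a.1, (v_neg hc a.1).trans_le a.2⟩

theorem nsmul_le {P : E.toAffine.Point} (h : KerV v P) (n : ℕ) :
    v (zf (n • P) - n * zf P) ≤ v (zf P) ^ 2 := by
  induction n with
  | zero => simp [zf_zero]
  | succ n ih =>
    have m := (Fl hc (v (zf P))).nsmul_mem (x := P) ⟨h, le_rfl⟩ n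
    rw [succ_nsmul, show zf (n • P + P) - (n + 1 : ℕ) * zf P =
      zf (n • P + P) - (zf (n • P) + zf P) + (zf (n • P) - n * zf P) by push_cast; ring]
    exact v.map_add_le ((add_le hc m.1 h).trans (by rw [sq]; exact mul_le_mul_left m.2 _)) ih

/-- close integral points differ by a point in the kernel of the reduction -/
theorem near {x₁ y₁ x₂ y₂ : K} (h₁ : E.toAffine.Nonsingular x₁ y₁)
    (h₂ : E.toAffine.Nonsingular x₂ y₂) (a₁ : v x₁ ≤ 1) (a₂ : v x₂ ≤ 1)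
    (hx : v (x₁ - x₂) < v E.Δ) (hy : v (y₁ - y₂) < v E.Δ) :
    KerV v (Point.some x₁ y₁ h₁ - .some x₂ y₂ h₂) := by
  rw [sub_eq_add_neg, Point.neg_some]
  have h₃ := (nonsingular_neg _ _).2 h₂
  by_cases hxy : x₁ = x₂ ∧ y₁ = E.toAffine.negY x₂ (E.toAffine.negY x₂ y₂)
  · rw [Point.add_of_Y_eq hxy.1 hxy.2]; trivial
  obtain ⟨hl, hk⟩ := slope_rel h₁.1 h₃.1 hxy
  rw [Point.add_some hxy]
  intro h3
  generalize E.toAffine.slope x₁ x₂ y₁ (E.toAffine.negY x₂ y₂) = l at hl hk h3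
  have a₅ := y_int hc h₂.1 a₂
  obtain ⟨c1, c2, c3, c4, c6⟩ := hc
  have hlO : v l ≤ 1 := quad_le_one (a := E.a₁) c1
    (b := E.toAffine.addX x₁ x₂ l + E.a₂ + x₁ + x₂) (by rw [addX]; ring)
    (v.map_add_le (v.map_add_le (v.map_add_le h3 c2) a₁) a₂)
  have m : ∀ {a b : K}, a ∈ v.integer → v b < v E.Δ → v (a * b) < v E.Δ := fun ha hb =>
    (val_mul_le ha le_rfl).trans_lt (by rwa [one_mul])
  change _ ∈ v.integer at c1 c2 c3 c4 c6 a₁ a₂ a₅ hlO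
  rw [negY] at hl hk
  have p1 : v (psi E x₂ y₂) < v E.Δ := by
    rw [show psi E x₂ y₂ = l * (x₁ - x₂) - (y₁ - y₂) by rw [psi]; linear_combination hl]
    exact v.map_sub_lt (m hlO hx) hy
  have p2 : v (phi E x₂ y₂) < v E.Δ := by
    rw [show phi E x₂ y₂ = (l + E.a₁) * (y₁ - y₂) - (x₁ + x₂ + x₂ + E.a₂) * (x₁ - x₂) by
      rw [phi]; linear_combination -hk]
    exact v.map_sub_lt (m (add_mem hlO c1) hy)
      (m (by apply_rules [add_mem]) hx)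
  have e := variableChange_Δ E ⟨1, x₂, 0, y₂⟩
  have q := (equation_iff _ _).1 h₂.1
  have e6 : ((⟨1, x₂, 0, y₂⟩ : VariableChange K) • E).a₆ = 0 := by
    simp [variableChange_a₆]; linear_combination -q
  have e4 : ((⟨1, x₂, 0, y₂⟩ : VariableChange K) • E).a₄ = phi E x₂ y₂ := by
    simp [variableChange_a₄, phi]; ring
  have e3 : ((⟨1, x₂, 0, y₂⟩ : VariableChange K) • E).a₃ = psi E x₂ y₂ := by
    simp [variableChange_a₃, psi]; ring
  have e2 : ((⟨1, x₂, 0, y₂⟩ : VariableChange K) • E).a₂ = E.a₂ + 3 * x₂ := by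
    simp [variableChange_a₂]
  have e1 : ((⟨1, x₂, 0, y₂⟩ : VariableChange K) • E).a₁ = E.a₁ := by simp [variableChange_a₁]
  rw [WeierstrassCurve.Δ, b₂, b₄, b₆, b₈, e1, e2, e3, e4, e6] at e
  have i1 : psi E x₂ y₂ ∈ v.integer := by
    rw [psi]; apply_rules [add_mem, mul_mem, ofNat_mem]
  have i2 : phi E x₂ y₂ ∈ v.integer := by
    rw [phi]; apply_rules [add_mem, sub_mem, mul_mem, pow_mem, ofNat_mem]
  have i3 : E.a₂ + 3 * x₂ ∈ v.integer := by apply_rules [add_mem, mul_mem, ofNat_mem]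
  generalize psi E x₂ y₂ = s at *
  generalize phi E x₂ y₂ = t at *
  generalize E.a₂ + 3 * x₂ = a at *
  have f : E.Δ = ((E.a₁ ^ 2 + 4 * a) ^ 2 * (E.a₁ * s + t) - 8 * ((2 * t + E.a₁ * s) ^ 2 * 2)) * t +
      (9 * (E.a₁ ^ 2 + 4 * a) * (2 * t + E.a₁ * s) * s - (E.a₁ ^ 2 + 4 * a) ^ 2 * a * s -
        8 * ((2 * t + E.a₁ * s) ^ 2 * E.a₁) - 27 * s ^ 3) * s := by
    simp only [inv_one, Units.val_one, one_pow, one_mul] at e
    linear_combination -e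
  refine lt_irrefl (v E.Δ) ?_
  nth_rewrite 1 [f]
  refine v.map_add_lt (m ?_ p2) (m ?_ p1) <;>
    apply_rules [add_mem, sub_mem, mul_mem, pow_mem, ofNat_mem]

end Vale.Agent.P014T.Lc
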