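import Vale.Agent.P014T.Lc.Fg

/-! # P014T, local points: complete fields, indices, the logarithm -/

set_option linter.all false

open scoped Classical NNReal Topology
open WeierstrassCurve WeierstrassCurve.Affine P179W Filter

noncomputable section

namespace Vale.Agent.P014T.Lc

/-- the absolute value as a valuation -/
abbrev nv (K : Type) [NormedField K] [IsUltrametricDist K] : Valuation K ℝ≥0 :=
  NormedField.valuation

section

variable {K : Type} [Field K] {Γ : Type} [LinearOrderedCommGroupWithZero Γ] {v : Valuation K Γ}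
  {E : WeierstrassCurve K} (hc : CoeffIn E {z | v z ≤ 1})

/-- the open filtration -/
def Fo (M : Γ) (h : 0 < M) : AddSubgroup E.toAffine.Point where
  carrier := {P | KerV v P ∧ v (zf P) < M}
  zero_mem' := ⟨trivial, by simpa [zf_zero]⟩
  add_mem' := fun {P Q} a b => ⟨kerV_add hc a.1 b.1,
    ((Fl hc (max (v (zf P)) (v (zf Q)))).add_mem ⟨a.1, le_max_left _ _⟩
      ⟨b.1, le_max_right _ _⟩).2.trans_lt (max_lt a.2 b.2)⟩
  neg_mem' := fun a => ⟨kerV_neg.2 a.1, (v_neg hc a.1).trans_lt a.2⟩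

include hc in
theorem v_nsmul {P : E.toAffine.Point} (h : KerV v P) {n : ℕ} (k : v (zf P) < v n) :
    v (zf (n • P)) = v n * v (zf P) := by
  by_cases e : zf P = 0
  · rw [zf_eq_zero hc h e]; simp [zf_zero]
  rw [← map_mul, ← add_sub_cancel (n * zf P) (zf (n • P))]
  refine v.map_add_eq_of_lt_left ((nsmul_le hc h n).trans_lt ?_)
  rw [sq, map_mul]
  exact mul_lt_mul_of_pos_right k (zero_lt_iff.2 ((map_ne_zero v).2 e))

include hc in
theorem v_pow {P : E.toAffine.Point} (h : KerV v P) {p : ℕ} (k : v (zf P) < v p) (n : ℕ) :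
    v (zf (p ^ n • P)) ≤ v p ^ n * v (zf P) := by
  have p1 : v p ≤ 1 := natCast_mem v.integer p
  induction n with
  | zero => simp
  | succ n ih =>
    rw [pow_succ', mul_smul, v_nsmul hc ((E1 hc).nsmul_mem h _) (ih.trans_lt
      ((mul_le_of_le_one_left' (pow_le_one₀ zero_le' p1)).trans_lt k)), pow_succ', mul_assoc]
    exact mul_le_mul_right ih _

end

variable {K : Type} [NormedField K] [IsUltrametricDist K] {E : WeierstrassCurve K}

/-- **the logarithm** -/
def Lg (p : ℕ) (E : WeierstrassCurve K) (lg : E.toAffine.Point →+ K) : Prop :=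
  ∀ P, KerV (nv K) P → ‖zf P‖ < ‖(p : K)‖ → ‖(p : K)‖ * ‖lg P - zf P‖ ≤ ‖zf P‖ ^ 2

theorem fix [CompleteSpace K] {T : K → K} {M c : ℝ≥0} (hc : c < 1)
    (h1 : ∀ t, nv K t ≤ M → nv K (T t) ≤ M)
    (h2 : ∀ s t, nv K s ≤ M → nv K t ≤ M → nv K (T s - T t) ≤ c * nv K (s - t)) :
    ∃ t, nv K t ≤ M ∧ T t = t := by
  have m : ∀ t, t ∈ Metric.closedBall (0 : K) M ↔ nv K t ≤ M := fun t => mem_closedBall_zero_iff
  obtain ⟨y, hy, e, -⟩ := ContractingWith.exists_fixedPoint' (f := T) (K := c)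
    Metric.isClosed_closedBall.isComplete (fun t ht => (m _).2 (h1 t ((m t).1 ht)))
    ⟨hc, LipschitzWith.of_dist_le_mul fun a b => by
      rw [Subtype.dist_eq, Subtype.dist_eq, dist_eq_norm, dist_eq_norm]
      exact_mod_cast h2 a b ((m _).1 a.2) ((m _).1 b.2)⟩
    (Metric.mem_closedBall_self M.2) (edist_ne_top _ _)
  exact ⟨y, (m y).1 hy, e⟩

theorem hens [CompleteSpace K] {c₀ c₁ c₂ c₃ : K} (h0 : nv K c₀ < 1) (h1 : nv K c₁ = 1)
    (h2 : nv K c₂ ≤ 1) (h3 : nv K c₃ ≤ 1) :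
    ∃ t, nv K t ≤ nv K c₀ ∧ c₀ + c₁ * t + c₂ * t ^ 2 + c₃ * t ^ 3 = 0 := by
  have n : c₁ ≠ 0 := fun e => by simp [e] at h1
  obtain ⟨t, ht, e⟩ := fix (T := fun t => -(c₀ + (t * (c₂ + c₃ * t)) * t) / c₁) h0
    (fun t ht => by
      have := (ht.trans_lt h0).le
      rw [map_div₀, h1, div_one, Valuation.map_neg]
      exact (nv K).map_add_le le_rfl (by
        simpa only [one_mul] using val_mul_le (val_mul_le_one this
          ((nv K).map_add_le h2 (val_mul_le_one h3 this))) ht))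
    (fun s t hs ht => by
      have a := (hs.trans_lt h0).le
      have b := (ht.trans_lt h0).le
      rw [show -(c₀ + (s * (c₂ + c₃ * s)) * s) / c₁ - -(c₀ + (t * (c₂ + c₃ * t)) * t) / c₁ =
        -(((c₂ + c₃ * (s + t)) * s + (c₂ + c₃ * t) * t) * (s - t)) / c₁ by ring, map_div₀, h1,
        div_one, Valuation.map_neg]
      refine val_mul_le ((nv K).map_add_le ?_ ?_) le_rfl
      · simpa only [one_mul] using val_mul_le ((nv K).map_add_le h2 (val_mul_le_one h3
          ((nv K).map_add_le a b))) hs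
      · simpa only [one_mul] using val_mul_le ((nv K).map_add_le h2 (val_mul_le_one h3 b)) ht)
  exact ⟨t, ht, by rw [div_eq_iff n] at e; linear_combination -e⟩

variable (hc : CoeffIn E {z | nv K z ≤ 1})
include hc

section

variable {p : ℕ} {lg lg' : E.toAffine.Point →+ K}

theorem Lg.lt (h : Lg p E lg) {P : E.toAffine.Point} (k : KerV (nv K) P) (m : ‖zf P‖ < ‖(p : K)‖)
    (n : P ≠ 0) : ‖lg P - zf P‖ < ‖zf P‖ := by
  have := norm_pos_iff.2 (mt (zf_eq_zero hc k) n)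
  refine lt_of_mul_lt_mul_left ((h P k m).trans_lt ?_) (norm_nonneg _)
  rw [sq]
  exact mul_lt_mul_of_pos_right m this

/-- the logarithm is an isometry near the origin -/
theorem Lg.norm (h : Lg p E lg) {P : E.toAffine.Point} (k : KerV (nv K) P)
    (m : ‖zf P‖ < ‖(p : K)‖) : ‖lg P‖ = ‖zf P‖ := by
  by_cases n : P = 0
  · simp [n, zf_zero]
  have := (nv K).map_add_eq_of_lt_left (x := zf P) (y := lg P - zf P) (h.lt hc k m n)
  rw [add_sub_cancel] at this
  exact congrArg NNReal.toReal this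

theorem Lg.tendsto (h : Lg p E lg) (p1 : ‖(p : K)‖ < 1) {P : E.toAffine.Point}
    (k : KerV (nv K) P) (m : ‖zf P‖ < ‖(p : K)‖) :
    Tendsto (fun n : ℕ => zf (p ^ n • P) / p ^ n) atTop (𝓝 (lg P)) := by
  have p0 : 0 < ‖(p : K)‖ := (norm_nonneg _).trans_lt m
  have p2 : (p : K) ≠ 0 := norm_pos_iff.1 p0
  rw [tendsto_iff_norm_sub_tendsto_zero]
  refine squeeze_zero (fun _ => norm_nonneg _) (fun n => ?_)
    (by simpa only [zero_mul] using
      (tendsto_pow_atTop_nhds_zero_of_lt_one p0.le p1).mul_const (‖zf P‖ ^ 2 / ‖(p : K)‖))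
  have a : ‖zf (p ^ n • P)‖ ≤ ‖(p : K)‖ ^ n * ‖zf P‖ := by exact_mod_cast v_pow hc k m n
  have b := h _ ((E1 hc).nsmul_mem k (p ^ n)) (a.trans_lt
    ((mul_le_of_le_one_left (norm_nonneg _) (pow_le_one₀ p0.le p1.le)).trans_lt m))
  rw [map_nsmul, nsmul_eq_mul, Nat.cast_pow] at b
  rw [show zf (p ^ n • P) / p ^ n - lg P = -((p : K) ^ n * lg P - zf (p ^ n • P)) / p ^ n by
    field_simp; ring, norm_div, norm_neg, norm_pow, div_le_iff₀ (by positivity)]
  refine le_of_mul_le_mul_left (b.trans ((pow_le_pow_left₀ (norm_nonneg _) a 2).trans_eq ?_)) p0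
  field_simp

theorem Lg.uniq (h : Lg p E lg) (h' : Lg p E lg') (p1 : ‖(p : K)‖ < 1) {P : E.toAffine.Point}
    {n : ℕ} (n0 : (n : K) ≠ 0) (k : KerV (nv K) (n • P)) (m : ‖zf (n • P)‖ < ‖(p : K)‖) :
    lg P = lg' P := by
  have := tendsto_nhds_unique (h.tendsto hc p1 k m) (h'.tendsto hc p1 k m)
  rw [map_nsmul, map_nsmul, nsmul_eq_mul, nsmul_eq_mul] at this
  exact mul_left_cancel₀ n0 this

end

variable [CompleteSpace K]

theorem ex_lg [CharZero K] {p : ℕ} (p0 : p ≠ 0) (p1 : ‖(p : K)‖ < 1) : ∃ lg, Lg p E lg := by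
  have p2 : (p : K) ≠ 0 := Nat.cast_ne_zero.2 p0
  have p3 : 0 < ‖(p : K)‖ := norm_pos_iff.2 p2
  let U := Fo hc (nv K p) (by exact_mod_cast p3)
  let a : E.toAffine.Point → ℕ → K := fun P n => zf (p ^ n • P) / p ^ n
  have b : ∀ P ∈ U, ∀ n, ‖zf (p ^ n • P)‖ ≤ ‖(p : K)‖ ^ n * ‖zf P‖ := fun P h n => by
    exact_mod_cast v_pow hc h.1 h.2 n
  have d : ∀ P ∈ U, ∀ n, ‖a P (n + 1) - a P n‖ ≤ ‖zf P‖ ^ 2 / ‖(p : K)‖ * ‖(p : K)‖ ^ n :=
    fun P h n => by
      have e : ‖zf (p • p ^ n • P) - p * zf (p ^ n • P)‖ ≤ ‖zf (p ^ n • P)‖ ^ 2 := by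
        exact_mod_cast nsmul_le hc (U.nsmul_mem h (p ^ n)).1 p
      rw [show a P (n + 1) - a P n = (zf (p • p ^ n • P) - p * zf (p ^ n • P)) / p ^ (n + 1) by
        simp only [a, pow_succ', mul_smul]; field_simp, norm_div, norm_pow,
        div_le_iff₀ (by positivity)]
      refine e.trans ((pow_le_pow_left₀ (norm_nonneg _) (b P h n) 2).trans_eq ?_)
      field_simp
      ring
  have t : ∀ P : U, ∃ l, Tendsto (a P) atTop (𝓝 l) := fun P => cauchySeq_tendsto_of_complete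
    (cauchySeq_of_le_geometric _ _ p1 fun n => by rw [dist_comm, dist_eq_norm]; exact d P P.2 n)
  choose l hl using t
  have ad : ∀ P Q : U, l (P + Q) = l P + l Q := fun P Q => by
    refine tendsto_nhds_unique (hl (P + Q)) (((hl P).add (hl Q)).congr_dist ?_)
    refine squeeze_zero (fun _ => dist_nonneg) (fun n => ?_)
      (by simpa only [zero_mul] using
        (tendsto_pow_atTop_nhds_zero_of_lt_one p3.le p1).mul_const (‖zf P.1‖ * ‖zf Q.1‖))
    have e : ‖zf (p ^ n • P.1 + p ^ n • Q.1) - (zf (p ^ n • P.1) + zf (p ^ n • Q.1))‖ ≤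
        ‖zf (p ^ n • P.1)‖ * ‖zf (p ^ n • Q.1)‖ := by
      exact_mod_cast add_le hc (U.nsmul_mem P.2 (p ^ n)).1 (U.nsmul_mem Q.2 (p ^ n)).1
    rw [dist_comm, dist_eq_norm, show a (P + Q : U) n - (a P n + a Q n) =
      (zf (p ^ n • P.1 + p ^ n • Q.1) - (zf (p ^ n • P.1) + zf (p ^ n • Q.1))) / p ^ n by
        simp only [a, AddSubgroup.coe_add, nsmul_add]; ring, norm_div, norm_pow,
      div_le_iff₀ (by positivity)]
    refine e.trans ((mul_le_mul (b _ P.2 n) (b _ Q.2 n) (norm_nonneg _) (by positivity)).trans_eq ?_)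
    ring
  obtain ⟨lg, e⟩ := (Module.Baer.of_divisible K).extension_property_addMonoidHom U.subtype
    U.subtype_injective (AddMonoidHom.mk' l ad)
  refine ⟨lg, fun P k m => ?_⟩
  have hP : P ∈ U := ⟨k, m⟩
  have e1 : lg P = l ⟨P, hP⟩ := DFunLike.congr_fun e ⟨P, hP⟩
  have e2 : ∀ n, ‖a P n - zf P‖ ≤ ‖zf P‖ ^ 2 / ‖(p : K)‖ := fun n => by
    induction n with
    | zero => simp [a]; positivity
    | succ n ih =>
      rw [← sub_add_sub_cancel _ (a P n)]
      exact (IsUltrametricDist.norm_add_le_max _ _).trans (max_le ((d P hP n).trans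
        (mul_le_of_le_one_right (by positivity) (pow_le_one₀ p3.le p1.le))) ih)
  rw [e1, mul_comm, ← le_div_iff₀ p3]
  exact le_of_tendsto' ((hl ⟨P, hP⟩).sub_const _).norm e2

variable (hΔ : E.Δ ≠ 0)
include hΔ

theorem surj {z : K} (hz : nv K z < 1) : ∃ P : E.toAffine.Point, KerV (nv K) P ∧ zf P = z := by
  by_cases z0 : z = 0
  · exact ⟨0, trivial, z0.symm⟩
  obtain ⟨c1, c2, c3, c4, c6⟩ := hc
  have p : 0 < nv K z := zero_lt_iff.2 ((map_ne_zero _).2 z0)
  obtain ⟨w, hw, e⟩ := hens (c₀ := z ^ 3) (c₁ := -(1 - z * (E.a₁ + E.a₂ * z)))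
    (c₂ := E.a₃ + E.a₄ * z) (by rw [map_pow]; exact pow_lt_one₀ zero_le' hz three_ne_zero) (by
      rw [Valuation.map_neg]
      refine (nv K).map_one_sub_of_lt ?_
      rw [map_mul]
      exact mul_lt_one_of_nonneg_of_lt_one_left zero_le' hz
        ((nv K).map_add_le c1 (val_mul_le_one c2 hz.le)))
    ((nv K).map_add_le c3 (val_mul_le_one c4 hz.le)) c6
  have w0 : w ≠ 0 := by
    rintro rfl
    simp [z0] at e
  refine ⟨.some (z / w) (-1 / w) (nonsing_of_Δ hΔ ?_), not_le.2 ?_, ?_⟩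
  · rw [equation_iff]
    field_simp
    linear_combination -e
  · rw [map_div₀, one_lt_div₀ (zero_lt_iff.2 ((map_ne_zero _).2 w0))]
    exact hw.trans_lt (by rw [map_pow]; exact pow_lt_self_of_lt_one₀ p hz (by norm_num))
  · change -(z / w) / (-1 / w) = z
    field_simp

/-- the logarithm is onto small balls -/
theorem Lg.surj {p : ℕ} {lg : E.toAffine.Point →+ K} (h : Lg p E lg) {c : K}
    (m : ‖c‖ < ‖(p : K)‖) : ∃ P, KerV (nv K) P ∧ ‖zf P‖ = ‖c‖ ∧ lg P = c := by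
  have m' : nv K c < nv K p := m
  have p0 : 0 < nv K p := zero_le'.trans_lt m'
  have p1 : nv K p ≤ 1 := natCast_mem (nv K).integer p
  have : ∀ z : K, ∃ P : E.toAffine.Point, nv K z < 1 → KerV (nv K) P ∧ zf P = z := fun z => by
    by_cases hz : nv K z < 1
    · exact (Lc.surj hc hΔ hz).imp fun _ k _ => k
    · exact ⟨0, fun k => absurd k hz⟩
  choose f hf using this
  have g : ∀ t, nv K t ≤ nv K c → f t ∈ Fl hc (nv K c) ∧ zf (f t) = t := fun t ht =>
    have := hf t ((ht.trans_lt m').trans_le p1)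
    ⟨⟨this.1, this.2.symm ▸ ht⟩, this.2⟩
  have n : ∀ P ∈ Fl hc (nv K c), nv K (lg P - zf P) ≤ nv K c / nv K p * nv K (zf P) := fun P k => by
    have : nv K p * nv K (lg P - zf P) ≤ nv K (zf P) ^ 2 := h P k.1 (k.2.trans_lt m')
    rw [div_mul_eq_mul_div, le_div_iff₀ p0, mul_comm]
    exact this.trans (by rw [sq]; exact mul_le_mul_left k.2 _)
  have q : nv K c / nv K p < 1 := (div_lt_one p0).2 m'
  obtain ⟨t, ht, e⟩ := fix (T := fun t => c - (lg (f t) - t)) (M := nv K c) q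
    (fun t ht => (nv K).map_sub_le le_rfl (by
      have := n _ (g t ht).1
      rw [(g t ht).2] at this
      exact this.trans ((mul_le_of_le_one_left' q.le).trans ht)))
    (fun s t hs ht => by
      obtain ⟨a, a'⟩ := g s hs
      obtain ⟨b, b'⟩ := g t ht
      have d := (Fl hc _).sub_mem a b
      have e1 := zf_sub hc a.1 b.1
      have e2 := add_le hc d.1 b.1
      rw [sub_add_cancel, a', b'] at e2
      rw [a', b'] at e1
      rw [show c - (lg (f s) - s) - (c - (lg (f t) - t)) = (s - (zf (f s - f t) + t)) -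
        (lg (f s - f t) - zf (f s - f t)) by rw [map_sub]; ring, e1]
      refine (nv K).map_sub_le (e2.trans ?_) (n _ d)
      rw [mul_comm]
      exact mul_le_mul_left (ht.trans (le_div_self zero_le' p0 p1)) _)
  have e' : lg (f t) = c := by linear_combination -e
  have k := (g t ht).1
  exact ⟨f t, k.1, by rw [← h.norm hc k.1 (k.2.trans_lt m'), e'], e'⟩

variable {R : Type} [Field R] {r : K → R} {Eb : WeierstrassCurve R} (h : Rd (nv K) r E Eb)
  (hs : ∀ c, ∃ a, nv K a ≤ 1 ∧ r a = c)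
include h hs

theorem red_onto {a b : R} (n : Eb.toAffine.Nonsingular a b) :
    ∃ x y, E.toAffine.Nonsingular x y ∧ nv K x ≤ 1 ∧ r x = a ∧ r y = b := by
  have st : ∀ a t, nv K a ≤ 1 → nv K t < 1 → r (a + t) = r a := fun a t ha ht => by
    rw [h.add a t ha ht.le, (h.zero t ht.le).2 ht, add_zero]
  obtain ⟨E₀, ρ, rfl, rfl, hr, hρ⟩ := h.model hc
  obtain ⟨x, hx, rfl⟩ := hs a
  obtain ⟨y, hy, rfl⟩ := hs b
  lift x to (nv K).integer using hx
  lift y to (nv K).integer using hy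
  rw [hr, hr, nonsing_iff, equation_iff'] at n
  have e0 := (hρ (y ^ 2 + E₀.a₁ * x * y + E₀.a₃ * y -
    (x ^ 3 + E₀.a₂ * x ^ 2 + E₀.a₄ * x + E₀.a₆))).1 (by simpa using n.1)
  have u : ∀ c : (nv K).integer, ρ c ≠ 0 → nv K c = 1 := fun c k =>
    le_antisymm c.2 (not_lt.1 (mt (hρ c).2 k))
  have t2 : ((2 : (nv K).integer) : K) = 2 := rfl
  have t3 : ((3 : (nv K).integer) : K) = 3 := rfl
  rcases n.2 with k | k
  · obtain ⟨t, ht, e⟩ := hens e0 (u (-(3 * x ^ 2 + 2 * E₀.a₂ * x + E₀.a₄ - E₀.a₁ * y))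
      (by rw [map_neg, neg_ne_zero]; simpa [phi, map_ofNat] using k)) (-(3 * x + E₀.a₂)).2
      (-1 : (nv K).integer).2
    refine ⟨x + t, y, nonsing_of_Δ hΔ ?_, (nv K).map_add_le x.2 (ht.trans e0.le),
      st _ _ x.2 (ht.trans_lt e0), rfl⟩
    rw [equation_iff']
    simp only [map_a₁, map_a₂, map_a₃, map_a₄, map_a₆, Subring.subtype_apply]
    push_cast [t2, t3] at e
    linear_combination e
  · obtain ⟨t, ht, e⟩ := hens e0 (u (2 * y + E₀.a₁ * x + E₀.a₃)
      (by simpa [psi, map_ofNat] using k)) (1 : (nv K).integer).2 (0 : (nv K).integer).2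
    refine ⟨x, y + t, nonsing_of_Δ hΔ ?_, x.2, rfl, st _ _ y.2 (ht.trans_lt e0)⟩
    rw [equation_iff']
    simp only [map_a₁, map_a₂, map_a₃, map_a₄, map_a₆, Subring.subtype_apply]
    push_cast [t2, t3] at e
    linear_combination e

/-- `E₀ / E₁` is the group of nonsingular points of the reduction -/
theorem idx0 : (E1 hc).relIndex (E0 hc) = Nat.card Eb.toAffine.Point := by
  obtain ⟨f, f0, f1⟩ := ex_red hc h
  have e : (E1 hc).addSubgroupOf (E0 hc) = f.ker := AddSubgroup.ext fun P => (f0 P).symm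
  rw [AddSubgroup.relIndex, e, AddSubgroup.index_ker, AddMonoidHom.range_eq_top.2,
    AddSubgroup.card_top]
  rintro (_ | ⟨a, b, n⟩)
  · exact ⟨0, map_zero f⟩
  · obtain ⟨x, y, k, hx, rfl, rfl⟩ := red_onto hc hΔ h hs n
    obtain ⟨m, e⟩ := f1 x y k hx n
    exact ⟨_, e⟩

/-- the steps of the filtration -/
theorem idx1 {c : K} (c0 : 0 < nv K c) (c1 : nv K c < 1) :
    (Fo hc (nv K c) c0).relIndex (Fl hc (nv K c)) = Nat.card R := by
  have d : ∀ {z}, nv K z ≤ nv K c → nv K (z / c) ≤ 1 := fun k => by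
    rwa [map_div₀, div_le_one c0]
  let f : Fl hc (nv K c) →+ R := AddMonoidHom.mk' (fun P => r (zf P.1 / c)) fun P Q => by
    have e := (add_le hc P.2.1 Q.2.1).trans_lt ((mul_le_mul' P.2.2 Q.2.2).trans_lt
      (mul_lt_of_lt_one_left c0 c1))
    have s := (nv K).map_add_le (d P.2.2) (d Q.2.2)
    change r (zf (P.1 + Q.1) / c) = r _ + r _
    rw [← h.add _ _ (d P.2.2) (d Q.2.2), show zf (P.1 + Q.1) / c = zf P.1 / c + zf Q.1 / c +
      (zf (P.1 + Q.1) - (zf P.1 + zf Q.1)) / c by ring, h.add _ _ s (d e.le),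
      (h.zero _ (d e.le)).2 (by rwa [map_div₀, div_lt_one c0]), add_zero]
  have e : (Fo hc _ c0).addSubgroupOf (Fl hc (nv K c)) = f.ker := AddSubgroup.ext fun P =>
    (and_iff_right P.2.1).trans (by
      change _ ↔ r (zf P.1 / c) = 0
      rw [h.zero _ (d P.2.2), map_div₀, div_lt_one c0]
      rfl)
  rw [AddSubgroup.relIndex, e, AddSubgroup.index_ker, AddMonoidHom.range_eq_top.2,
    AddSubgroup.card_top]
  intro b
  obtain ⟨a, ha, rfl⟩ := hs b
  have k : nv K (a * c) ≤ nv K c := by simpa only [one_mul] using val_mul_le ha (le_refl (nv K c))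
  obtain ⟨P, k1, k2⟩ := surj hc hΔ (k.trans_lt c1)
  refine ⟨⟨P, k1, k2.symm ▸ k⟩, ?_⟩
  change r (zf P / c) = _
  rw [k2, mul_div_cancel_right₀ _ ((map_ne_zero _).1 c0.ne')]

end Vale.Agent.P014T.Lc
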