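import Mathlib

/-!
# P014T: the number of nonsingular points of a singular Weierstrass cubic
-/

open WeierstrassCurve

namespace Vale.Agent.P014T.Lc.Sg

variable {F : Type*} [Field F]

/-- `(x, y)` is a singular point of `V` -/
structure Sing (V : WeierstrassCurve F) (x y : F) : Prop where
  e : y ^ 2 + V.a₁ * x * y + V.a₃ * y = x ^ 3 + V.a₂ * x ^ 2 + V.a₄ * x + V.a₆
  f : V.a₁ * y = 3 * x ^ 2 + 2 * V.a₂ * x + V.a₄
  g : 2 * y + V.a₁ * x + V.a₃ = 0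

/-- the tangent cone at a singular point with abscissa `x` -/
def tc (V : WeierstrassCurve F) (x m : F) : F := m ^ 2 + V.a₁ * m - (V.a₂ + 3 * x)

variable {V : WeierstrassCurve F} {x₀ y₀ : F}

theorem Sing.ns (h : Sing V x₀ y₀) {m : F} (hm : tc V x₀ m ≠ 0) :
    V.toAffine.Nonsingular (x₀ + tc V x₀ m) (y₀ + m * tc V x₀ m) := by
  obtain ⟨d, hd⟩ : ∃ d, d = tc V x₀ m := ⟨_, rfl⟩
  rw [← hd] at hm ⊢
  rw [tc] at hd
  rw [Affine.nonsingular_iff', Affine.equation_iff']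
  refine ⟨by linear_combination h.e + d * h.f + m * d * h.g - d ^ 2 * hd, ?_⟩
  by_contra hc
  push Not at hc
  obtain ⟨h1, h2⟩ := hc
  have h3 : d * (2 * m + V.a₁) = 0 := by linear_combination h2 - h.g
  have h4 : 2 * m + V.a₁ = 0 := (mul_eq_zero.1 h3).resolve_left hm
  have h5 : d * d = 0 := by linear_combination - h1 + h.f - 2 * d * hd - d * m * h4
  exact hm (mul_self_eq_zero.1 h5)

theorem Sing.ne (h : Sing V x₀ y₀) {x y : F} (hn : V.toAffine.Nonsingular x y) : x - x₀ ≠ 0 := by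
  intro h0
  obtain rfl : x = x₀ := sub_eq_zero.1 h0
  rw [Affine.nonsingular_iff', Affine.equation_iff'] at hn
  obtain ⟨h1, h2⟩ := hn
  have h3 : (y - y₀) ^ 2 = 0 := by linear_combination h1 - h.e - (y - y₀) * h.g
  obtain rfl : y = y₀ := sub_eq_zero.1 (pow_eq_zero_iff two_ne_zero |>.1 h3)
  rcases h2 with h2 | h2
  · exact h2 (by linear_combination h.f)
  · exact h2 h.g

theorem Sing.tc_eq (h : Sing V x₀ y₀) {x y : F} (hn : V.toAffine.Nonsingular x y) :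
    tc V x₀ ((y - y₀) / (x - x₀)) = x - x₀ := by
  have h0 := h.ne hn
  have h1 := (Affine.equation_iff' ..).1 hn.1
  rw [tc]
  field_simp
  linear_combination h1 - h.e - (x - x₀) * h.f - (y - y₀) * h.g

/-- the nonsingular points are parametrised by the slopes -/
noncomputable def Sing.equiv (h : Sing V x₀ y₀) :
    V.toAffine.Point ≃ Option {m : F // tc V x₀ m ≠ 0} where
  toFun P := match P with
    | .zero => none
    | .some x y hn => some ⟨(y - y₀) / (x - x₀), by rw [h.tc_eq hn]; exact h.ne hn⟩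
  invFun P := match P with
    | none => .zero
    | some m => .some _ _ (h.ns m.2)
  left_inv P := by
    rcases P with _ | ⟨x, y, hn⟩
    · rfl
    · have h0 := h.ne hn
      show Affine.Point.some _ _ _ = _
      rw [Affine.Point.some.injEq]
      show x₀ + tc V x₀ ((y - y₀) / (x - x₀)) = x ∧
        y₀ + (y - y₀) / (x - x₀) * tc V x₀ ((y - y₀) / (x - x₀)) = y
      rw [h.tc_eq hn]
      exact ⟨by ring, by field_simp; ring⟩
  right_inv P := by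
    rcases P with _ | ⟨m, hm⟩
    · rfl
    · show some _ = _
      rw [Option.some.injEq, Subtype.mk.injEq, add_sub_cancel_left, add_sub_cancel_left,
        mul_div_cancel_right₀ _ hm]

theorem Sing.card [Finite F] (h : Sing V x₀ y₀) :
    Nat.card V.toAffine.Point + Nat.card {m : F // tc V x₀ m = 0} = Nat.card F + 1 := by
  classical
  have e := Nat.card_congr (Equiv.sumCompl fun m : F => tc V x₀ m = 0)
  rw [Nat.card_sum] at e
  rw [Nat.card_congr h.equiv, Finite.card_option, ← e]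
  show Nat.card {m : F // ¬ tc V x₀ m = 0} + 1 + _ = _
  ring

theorem Sing.b₄ (h : Sing V x₀ y₀) : V.b₄ = -x₀ * V.b₂ - 6 * x₀ ^ 2 := by
  rw [WeierstrassCurve.b₄, WeierstrassCurve.b₂]
  linear_combination -2 * h.f + V.a₁ * h.g

theorem Sing.b₆ (h : Sing V x₀ y₀) : V.b₆ = x₀ ^ 2 * V.b₂ + 8 * x₀ ^ 3 := by
  rw [WeierstrassCurve.b₆, WeierstrassCurve.b₂]
  linear_combination -4 * h.e + 4 * x₀ * h.f + (2 * y₀ - V.a₁ * x₀ + V.a₃) * h.g

theorem Sing.c₄ (h : Sing V x₀ y₀) : V.c₄ = (V.b₂ + 12 * x₀) ^ 2 := by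
  rw [WeierstrassCurve.c₄, h.b₄]
  ring

theorem Sing.node (h : Sing V x₀ y₀) (T : F) :
    V.c₄ * T ^ 2 + V.a₁ * V.c₄ * T - (54 * V.b₆ - 3 * V.b₂ * V.b₄ + V.a₂ * V.c₄) =
      V.c₄ * tc V x₀ T := by
  rw [h.c₄, h.b₄, h.b₆, tc]
  ring

theorem tc_sq {m : F} (hm : tc V x₀ m = 0) : (2 * m + V.a₁) ^ 2 = V.b₂ + 12 * x₀ := by
  rw [tc] at hm
  rw [WeierstrassCurve.b₂]
  linear_combination 4 * hm

theorem tc_two {m m' : F} (hm : tc V x₀ m = 0) (hm' : tc V x₀ m' = 0) :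
    m' = m ∨ m' = -V.a₁ - m := by
  rw [tc] at hm hm'
  have : (m' - m) * (m' - (-V.a₁ - m)) = 0 := by linear_combination hm' - hm
  exact (mul_eq_zero.1 this).imp sub_eq_zero.1 sub_eq_zero.1

theorem Sing.card_two (h : Sing V x₀ y₀) (hc : V.c₄ ≠ 0) {m : F} (hm : tc V x₀ m = 0) :
    Nat.card {m : F // tc V x₀ m = 0} = 2 := by
  have hm' : tc V x₀ (-V.a₁ - m) = 0 := by
    rw [tc] at hm ⊢
    linear_combination hm
  rw [Nat.card_eq_two_iff]
  refine ⟨⟨m, hm⟩, ⟨_, hm'⟩, fun e => hc ?_, ?_⟩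
  · have e' : m = -V.a₁ - m := congrArg Subtype.val e
    rw [h.c₄, ← tc_sq hm]
    have : 2 * m + V.a₁ = 0 := by linear_combination e'
    rw [this]
    ring
  · refine Set.eq_univ_of_forall fun t => ?_
    rcases tc_two hm t.2 with e | e
    · exact Or.inl (Subtype.ext e)
    · exact Or.inr (Subtype.ext e)

theorem Sing.card_one (h : Sing V x₀ y₀) (hc : V.c₄ = 0) {m : F} (hm : tc V x₀ m = 0) :
    Nat.card {m : F // tc V x₀ m = 0} = 1 := by
  rw [h.c₄, ← tc_sq hm, ← pow_mul] at hc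
  have h1 : 2 * m + V.a₁ = 0 := pow_eq_zero_iff (by norm_num) |>.1 hc
  rw [Nat.card_eq_one_iff_exists]
  refine ⟨⟨m, hm⟩, fun t => Subtype.ext ?_⟩
  rcases tc_two hm t.2 with e | e
  · exact e
  · show t.1 = m
    linear_combination e - h1

/-- a singular point in characteristic prime to `6` -/
theorem ex_sing (h2 : (2 : F) ≠ 0) (h3 : (3 : F) ≠ 0) (hΔ : V.Δ = 0) : ∃ x y, Sing V x y := by
  have hr := V.c_relation
  rw [hΔ, mul_zero] at hr
  obtain ⟨s, s2, s3⟩ : ∃ s : F, s ^ 2 = V.c₄ ∧ s ^ 3 = V.c₆ := by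
    by_cases hc : V.c₄ = 0
    · rw [hc] at hr
      have : V.c₆ ^ 2 = 0 := by linear_combination hr
      exact ⟨0, by rw [hc]; ring, by rw [pow_eq_zero_iff two_ne_zero |>.1 this]; ring⟩
    · refine ⟨V.c₆ / V.c₄, ?_, ?_⟩
      · field_simp
        linear_combination hr
      · field_simp
        linear_combination V.c₆ * hr
  obtain ⟨x, hx⟩ : ∃ x : F, 2 * (2 * (3 * x)) = -(s + V.b₂) :=
    ⟨-(s + V.b₂) / (2 * 2 * 3), by field_simp⟩
  obtain ⟨y, hy⟩ : ∃ y : F, 2 * y = -(V.a₁ * x + V.a₃) := ⟨-(V.a₁ * x + V.a₃) / 2, by field_simp⟩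
  obtain rfl : s = -(12 * x) - V.b₂ := by linear_combination hx
  simp only [WeierstrassCurve.c₄, WeierstrassCurve.c₆] at s2 s3
  have k4 : 2 * (2 * (2 * (3 * (V.b₄ + x * V.b₂ + 6 * x ^ 2)))) = 0 := by linear_combination s2
  have h4 : V.b₄ + x * V.b₂ + 6 * x ^ 2 = 0 := by simpa [h2, h3] using k4
  have k6 : 2 * (2 * (2 * (3 * (3 * (3 * (V.b₆ - x ^ 2 * V.b₂ - 8 * x ^ 3)))))) = 0 := by
    linear_combination s3 + 36 * V.b₂ * h4
  have h6 : V.b₆ - x ^ 2 * V.b₂ - 8 * x ^ 3 = 0 := by simpa [h2, h3] using k6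
  simp only [WeierstrassCurve.b₂, WeierstrassCurve.b₄, WeierstrassCurve.b₆] at h4 h6
  have g : 2 * y + V.a₁ * x + V.a₃ = 0 := by linear_combination hy
  have f : V.a₁ * y = 3 * x ^ 2 + 2 * V.a₂ * x + V.a₄ := by
    apply mul_left_cancel₀ h2
    linear_combination V.a₁ * g - h4
  refine ⟨x, y, ?_, f, g⟩
  apply mul_left_cancel₀ h2
  apply mul_left_cancel₀ h2
  linear_combination 4 * x * f + (2 * y - V.a₁ * x + V.a₃) * g - h6

theorem sing2 : ∀ a b c d e : ZMod 2,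
    -(a ^ 2 + 4 * b) ^ 2 * (a ^ 2 * e + 4 * b * e - a * c * d + b * c ^ 2 - d ^ 2) -
      8 * (2 * d + a * c) ^ 3 - 27 * (c ^ 2 + 4 * e) ^ 2 +
      9 * (a ^ 2 + 4 * b) * (2 * d + a * c) * (c ^ 2 + 4 * e) = 0 →
    ∃ x y : ZMod 2, y ^ 2 + a * x * y + c * y = x ^ 3 + b * x ^ 2 + d * x + e ∧
      a * y = 3 * x ^ 2 + 2 * b * x + d ∧ 2 * y + a * x + c = 0 := by
  decide

theorem sing3 : ∀ a b c d e : ZMod 3,
    -(a ^ 2 + 4 * b) ^ 2 * (a ^ 2 * e + 4 * b * e - a * c * d + b * c ^ 2 - d ^ 2) -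
      8 * (2 * d + a * c) ^ 3 - 27 * (c ^ 2 + 4 * e) ^ 2 +
      9 * (a ^ 2 + 4 * b) * (2 * d + a * c) * (c ^ 2 + 4 * e) = 0 →
    ∃ x y : ZMod 3, y ^ 2 + a * x * y + c * y = x ^ 3 + b * x ^ 2 + d * x + e ∧
      a * y = 3 * x ^ 2 + 2 * b * x + d ∧ 2 * y + a * x + c = 0 := by
  decide +kernel

theorem cusp2 : ∀ a b x : ZMod 2, a ^ 2 + 4 * b + 12 * x = 0 →
    ∃ m : ZMod 2, m ^ 2 + a * m - (b + 3 * x) = 0 := by
  decide

variable {p : ℕ} [hp : Fact p.Prime]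

theorem cast_ne {q : ℕ} (hq : q.Prime) (h : p ≠ q) : ((q : ℕ) : ZMod p) ≠ 0 := by
  rw [Ne, ZMod.natCast_eq_zero_iff, Nat.prime_dvd_prime_iff_eq hp.out hq]
  exact h

theorem ex_sing_p (V : WeierstrassCurve (ZMod p)) (hΔ : V.Δ = 0) : ∃ x y, Sing V x y := by
  by_cases h2 : p = 2
  · subst h2
    obtain ⟨x, y, e, f, g⟩ := sing2 V.a₁ V.a₂ V.a₃ V.a₄ V.a₆ hΔ
    exact ⟨x, y, e, f, g⟩
  by_cases h3 : p = 3
  · subst h3
    obtain ⟨x, y, e, f, g⟩ := sing3 V.a₁ V.a₂ V.a₃ V.a₄ V.a₆ hΔ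
    exact ⟨x, y, e, f, g⟩
  exact ex_sing (by exact_mod_cast cast_ne Nat.prime_two h2)
    (by exact_mod_cast cast_ne Nat.prime_three h3) hΔ

/-- **cusp** -/
theorem card_cusp (V : WeierstrassCurve (ZMod p)) (hΔ : V.Δ = 0) (hc : V.c₄ = 0) :
    Nat.card V.toAffine.Point = p := by
  obtain ⟨x, y, h⟩ := ex_sing_p V hΔ
  have h1 : V.b₂ + 12 * x = 0 := pow_eq_zero_iff two_ne_zero |>.1 (h.c₄ ▸ hc)
  rw [WeierstrassCurve.b₂] at h1
  obtain ⟨m, hm⟩ : ∃ m, tc V x m = 0 := by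
    by_cases h2 : p = 2
    · subst h2
      exact cusp2 _ _ _ h1
    · have h3 : (2 : ZMod p) ≠ 0 := by exact_mod_cast cast_ne Nat.prime_two h2
      refine ⟨-V.a₁ / 2, ?_⟩
      rw [tc]
      field_simp
      linear_combination -h1
  have := h.card
  rw [h.card_one hc hm, Nat.card_zmod] at this
  omega

/-- **split node** -/
theorem card_split (V : WeierstrassCurve (ZMod p)) (hΔ : V.Δ = 0) (hc : V.c₄ ≠ 0)
    (hs : ∃ T, V.c₄ * T ^ 2 + V.a₁ * V.c₄ * T - (54 * V.b₆ - 3 * V.b₂ * V.b₄ + V.a₂ * V.c₄) = 0) :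
    Nat.card V.toAffine.Point + 1 = p := by
  obtain ⟨x, y, h⟩ := ex_sing_p V hΔ
  obtain ⟨T, hT⟩ := hs
  rw [h.node] at hT
  have := h.card
  rw [h.card_two hc ((mul_eq_zero.1 hT).resolve_left hc), Nat.card_zmod] at this
  omega

/-- **non split node** -/
theorem card_nonsplit (V : WeierstrassCurve (ZMod p)) (hΔ : V.Δ = 0)
    (hs : ¬ ∃ T, V.c₄ * T ^ 2 + V.a₁ * V.c₄ * T -
      (54 * V.b₆ - 3 * V.b₂ * V.b₄ + V.a₂ * V.c₄) = 0) :
    Nat.card V.toAffine.Point = p + 1 := by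
  obtain ⟨x, y, h⟩ := ex_sing_p V hΔ
  have : IsEmpty {m // tc V x m = 0} := ⟨fun m => hs ⟨m.1, by rw [h.node, m.2, mul_zero]⟩⟩
  have := h.card
  rwa [Nat.card_of_isEmpty (α := {m // tc V x m = 0}), Nat.card_zmod, add_zero] at this

end Vale.Agent.P014T.Lc.Sg
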